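import Vale.Agent.N352.X.Ops
import Vale.Agent.N352.Rn.Cv
import Vale.Agent.P352X.TR0

/-!
# N352, block K: from the locality of the vectors to the locality of the operators
-/

set_option linter.all false

open Filter Topology Set
open scoped ComplexConjugate

namespace Vale.Agent.N352.K

open Vale.Agent.P352 Vale.Agent.P352.GF Vale.Agent.P352.BW Vale.Agent.P352.H246
open Vale.Agent.P352.H496 Vale.Agent.P352.H755 Vale.Agent.P352.H15
open Vale.Agent.P352.SubConf (IsAdj)
open Vale.Agent.P352X Vale.Agent.P352X.EB P352R.Tw P352W.Net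
open Vale.Agent.P352X.EB.NA (adj_lin)
open Vale.Agent.P352NA (Cyc)
open UniformSpace (Completion)

noncomputable section

section klein

variable {H : Type*} [NormedAddCommGroup H] [InnerProductSpace ℂ H] [CompleteSpace H]
  {Γ X Y : H →L[ℂ] H} {M : VonNeumannAlgebra H} (g : Γ * Γ = 1) (s : star Γ = Γ)
include g s

theorem kl_of (h : X ∈ M) : kz 1 Γ * X * kz (-1) Γ ∈ Kl Γ M := (mem_kl g s).2 (by
  rwa [← mul_assoc, ← mul_assoc, kz2 g, one_mul, mul_assoc, kz2 g, mul_one])

theorem kl_com (h : Y ∈ (Kl Γ M).commutant) : Y ∈ Kl Γ M.commutant :=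
  (mem_kl g s).2 (VonNeumannAlgebra.mem_commutant_iff.2 fun X hX => by
    have := congrArg (fun x => kz (-1) Γ * x * kz 1 Γ)
      (VonNeumannAlgebra.mem_commutant_iff.1 h _ (kl_of g s hX))
    have b (x : H →L[ℂ] H) : kz (-1) Γ * (kz 1 Γ * x) = x := by rw [← mul_assoc, kz2 g, one_mul]
    simpa only [mul_assoc, b, kz2 g, mul_one] using this)

theorem kk : kz (-1) Γ * kz (-1) Γ = Γ ∧ kz 1 Γ * kz 1 Γ = Γ := by
  simp only [kz, add_mul, mul_add, smul_mul_assoc, mul_smul_comm, one_mul, mul_one, g]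
  constructor <;> match_scalars <;> first
    | linear_combination (1 / 2 : ℂ) * Complex.I_mul_I
    | linear_combination (-1 / 2 : ℂ) * Complex.I_mul_I

theorem klkl : Y ∈ Kl Γ (Kl Γ M) ↔ Γ * Y * Γ ∈ M := by
  rw [mem_kl g s, mem_kl g s, ← mul_assoc, ← mul_assoc, (kk g s).1, mul_assoc, (kk g s).2]

theorem kl_mono {M' : VonNeumannAlgebra H} (h : ∀ X ∈ M, X ∈ M') (k : Y ∈ Kl Γ M) :
    Y ∈ Kl Γ M' := (mem_kl g s).2 (h _ ((mem_kl g s).1 k))

theorem kl_gam (n : ∀ X ∈ M, Γ * X * Γ ∈ M) (k : Y ∈ Kl Γ M) : Γ * Y * Γ ∈ Kl Γ M := by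
  have := n _ ((mem_kl g s).1 k)
  have c : ∀ e, kz e Γ * Γ = Γ * kz e Γ := fun e => kz_cm rfl
  have c' : ∀ e x, kz e Γ * (Γ * x) = Γ * (kz e Γ * x) := fun e x => by
    rw [← mul_assoc, c, mul_assoc]
  rw [mem_kl g s]
  simpa only [mul_assoc, c, c'] using this

end klein

section cyc

variable {D : Type*} [NormedAddCommGroup D] [InnerProductSpace ℂ D] {P : Theory D}

theorem cont_adj {Y Y' : D → D} (h : ∀ v w, inner ℂ (Y v) w = inner ℂ v (Y' w)) {A : Fld D}
    (hA : P.fld A) (y : D) : Continuous fun g : Sch => Y' (A (ev g) y) := by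
  have l := adj_lin (X := Y') (X' := Y) fun v w => by rw [← inner_conj_symm, ← h, inner_conj_symm]
  haveI := ana_row.barr
  refine cont_of_weak (EG.H.JBp.mkL (fun g => Y' (A (ev g) y)) fun f g z => by
    rw [show ev (f + z • g) = fun x => ev f x + z * ev g x from rfl,
      P.lin A _ _ z y hA ⟨f, rfl⟩ ⟨g, rfl⟩, l.1, l.2]) dense_univ fun u _ => ?_
  show Continuous fun g : Sch => inner ℂ u (Y' (A (ev g) y))
  simp only [← h]
  exact continuous_const.inner (P.cont A y hA)

theorem al_adj {X X' : D → D} (h : Al P univ X X') (v w) : inner ℂ (X v) w = inner ℂ v (X' w) := by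
  induction h generalizing w with
  | one => rfl
  | add _ _ _ _ _ _ a b => rw [inner_add_left, inner_add_right, a, b]
  | smul z _ _ _ a => rw [inner_smul_left, inner_smul_right, a, starRingEnd_apply]
  | fld A B g _ _ _ _ d hg _ a => rw [d _ _ _ hg.1, a]

theorem al_pw {X X' : D → D} (h : Al P univ X X') {v} (hv : P352.PW P univ v) :
    P352.PW P univ (X' v) := by
  induction h generalizing v with
  | one => exact hv
  | add _ _ _ _ _ _ a b => exact .add (a hv) (b hv)
  | smul z _ _ _ a => exact .smul _ (a hv)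
  | fld A B g _ _ _ b d hg _ a =>
    obtain ⟨F, e, hF⟩ := exists_In hg.bar
    exact a (e ▸ .fld b hF hv)

/-- from compact supports to tempered test functions -/
theorem cyc_of {C C' : D → D} (hC : ∀ v w, inner ℂ (C' v) w = inner ℂ v (C w))
    {α β : D →L[ℂ] ℂ} (h : ∀ v, P352.PW P univ v → α v = β (C v)) {v : D} (hv : Cyc P v) :
    α v = β (C v) := by
  have l : ∀ {X X' : D → D}, (∀ v w, inner ℂ (X v) w = inner ℂ v (X' w)) →
      (∀ v w, X' (v + w) = X' v + X' w) ∧ ∀ (z : ℂ) v, X' (z • v) = z • X' v :=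
    fun h => adj_lin fun v w => by rw [← inner_conj_symm, ← h, inner_conj_symm]
  have l' := l hC
  let S : Submodule ℂ D :=
    { carrier := {y | ∀ X X', Al P univ X X' → α (X' y) = β (C (X' y))}
      add_mem' := fun h h' X X' k => by
        simp only [(l (al_adj k)).1, l'.1, map_add, h X X' k, h' X X' k]
      zero_mem' := fun X X' k => by
        have a := (l (al_adj k)).2 0 0
        have b := l'.2 0 0
        simp only [zero_smul] at a b
        simp [a, b]
      smul_mem' := fun z _ h X X' k => by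
        simp only [(l (al_adj k)).2, l'.2, map_smul, h X X' k] }
  refine hv S (fun X X' k => h _ (al_pw k .vac)) ?_ (fun v => v) (fun v => v) .one
  rintro A _ u hA ⟨G, rfl⟩ hu X X' k
  obtain ⟨A', hA', d'⟩ := P.adj A hA
  have c1 := (α.continuous.comp (cont_adj (al_adj k) hA u)).tendsto G
  have c2 := (β.continuous.comp (cont_adj (Y := fun v => X (C' v)) (Y' := fun v => C (X' v))
    (fun v w => by rw [al_adj k, hC]) hA u)).tendsto G
  refine tendsto_nhds_unique (c1.comp (ana_row.lim G))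
    ((c2.comp (ana_row.lim G)).congr fun R => ?_)
  have i := Ap.in_univ' (ana_row.inn R _ (Ap.test_ev G))
  have := hu _ _ (.fld A' A _ X X' hA' hA (H755.adj_symm d') i.bar k)
  simp only [Ap.bar_bar] at this
  simp only [Function.comp_apply, Ap.ev_sch i.1]
  exact this.symm

end cyc

variable {D : Type*} [NormedAddCommGroup D] [InnerProductSpace ℂ D]
  {E : Submodule ℂ (Completion D)} {P : Theory E} {G : E → E}
  {Γ Y : Completion D →L[ℂ] Completion D} {M : VonNeumannAlgebra (Completion D)}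

variable (M) in
/-- weak commutation with the commutant -/
def Wc (X X' : E → E) : Prop := ∀ Y ∈ M.commutant, ∀ v w : E,
  inner ℂ (X' w : Completion D) (Y v) = inner ℂ (w : Completion D) (Y (X v))

variable (P G Γ M) in
/-- the data for the lifting -/
structure Lf (a b y : V) : Prop where
  gr : Gr P G
  ext : ∀ v, (G v : Completion D) = Γ v
  vac : G P.vac = P.vac
  g2 : Γ * Γ = 1
  gs : star Γ = Γ
  gam : ∀ X ∈ M, Γ * X * Γ ∈ M
  dns : Dense (E : Set (Completion D))
  cyc : ∀ v, Cyc P v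
  na : IsNull a
  nb : IsNull b
  nab : GF.mdot a b = 1
  aff : ∀ B B' f, P.fld B → IsAdj B B' → In (Wdg b a y) f → Wc M (B f) (B' (bar f))

namespace Lf

variable {a b y : V} (h : Lf P G Γ M a b y)
include h

theorem gi (u w : Completion D) : inner ℂ (Γ u) w = inner ℂ u (Γ w) := by
  rw [← ContinuousLinearMap.adjoint_inner_right, ← ContinuousLinearMap.star_eq_adjoint, h.gs]

theorem gg (u : Completion D) : Γ (Γ u) = u := DFunLike.congr_fun h.g2 u

theorem dec (hY : Y ∈ (Kl Γ M).commutant) : ∃ S ∈ M.commutant, ∃ S' ∈ M.commutant,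
    (∀ u, Γ (S u) = S (Γ u)) ∧ (∀ u, Γ (S' u) = -S' (Γ u)) ∧ ∀ u, Y u = S u + S' (Γ u) := by
  obtain ⟨p, q⟩ := (kl_iff h.g2 h.gs (Rn.Cv.cg h.g2 h.gam)).1 (kl_com h.g2 h.gs hY)
  refine ⟨_, M.commutant.toStarSubalgebra.smul_mem p (1 / 2 : ℂ), _,
    M.commutant.toStarSubalgebra.smul_mem q (1 / 2 : ℂ), fun u => ?_, fun u => ?_, fun u => ?_⟩ <;>
  simp only [ContinuousLinearMap.smul_apply, ContinuousLinearMap.add_apply, map_smul, map_add,
    map_sub, ContinuousLinearMap.mul_apply, ContinuousLinearMap.sub_apply, h.gg] <;> module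

theorem wc0 {X X' : E → E} (w : Wc M X X') (e : ∀ v, X (G v) = G (X v)) : Wc (Kl Γ M) X X' :=
  fun Y hY v u => by
  obtain ⟨S, a, S', b, -, -, k⟩ := h.dec hY
  rw [k, k, inner_add_right, inner_add_right, w S a, ← h.ext, ← h.ext, w S' b, e]

theorem wc1 {X X' : E → E} (w : Wc M X X') (e : ∀ v, X (G v) = -G (X v)) :
    Wc (Kl Γ M) (fun v => X (G v)) fun v => G (X' v) := fun Y hY v u => by
  obtain ⟨S, a, S', b, p, q, k⟩ := h.dec hY
  dsimp only
  rw [k, k, h.ext, h.gi, map_add, p, q, h.gg, inner_add_right, inner_add_right, inner_neg_right,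
    ← h.ext, w S a, w S' b, e, Submodule.coe_neg, map_neg Γ, h.ext, h.gg, map_neg S',
    inner_neg_right]

/-- the graph of a field smeared in the wedge -/
theorem graph {C C' : Fld E} (hC : P.fld C) (ad : IsAdj C C') {f : Fn} (hf : In (Wdg a b y) f)
    {p q : Completion D} (k : ∀ Y ∈ Kl Γ M, inner ℂ p (Y P.vac) = inner ℂ q (Y (C f P.vac)))
    (v : E) : inner ℂ p (v : Completion D) = inner ℂ q (C f v : Completion D) := by
  have l := adj_lin fun v w => ad f v w hf.1
  have lg := adj_lin h.gr.herm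
  let A : E → Prop := fun v => ∀ p q : Completion D,
    (∀ Y ∈ Kl Γ M, inner ℂ p (Y P.vac) = inner ℂ q (Y (C f P.vac))) →
      inner ℂ p (v : Completion D) = inner ℂ q (C f v : Completion D)
  have Aa : ∀ {v w}, A v → A w → A (v + w) := fun a b p q k => by
    rw [l.1, Submodule.coe_add, Submodule.coe_add, inner_add_right, inner_add_right, a p q k,
      b p q k]
  have As : ∀ (z : ℂ) {v}, A v → A (z • v) := fun z _ a p q k => by
    rw [l.2, Submodule.coe_smul, Submodule.coe_smul, inner_smul_right, inner_smul_right, a p q k]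
  have st : ∀ {X X' : E → E}, Wc (Kl Γ M) X X' → (∀ u, X (C f u) = C f (X u)) →
      ∀ {v}, A v → A (X v) := fun {X X'} w e v a p q k => by
    obtain ⟨Z, z1, z2, -⟩ := TR.trunc (Kl Γ M) (fun v : E => (v : Completion D))
      (fun v => (X v : E)) (fun v => (X' v : E)) h.dns.denseRange_val w
    rw [← e]
    refine tendsto_nhds_unique (tendsto_const_nhds.inner (z2 v))
      ((tendsto_const_nhds.inner (z2 (C f v))).congr fun n => ?_)
    rw [← star_inner, ← star_inner]
    exact (a _ _ fun Y hY => by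
      rw [star_inner, star_inner]
      exact k _ (mul_mem (z1 n) hY)).symm
  have key : ∀ v, P352.PW P (MW (Wdg b a y)) v → A v ∧ A (G v) := fun v hv => by
    induction hv with
    | vac => rw [h.vac]; exact and_self_iff.2 fun p q k => k 1 (one_mem _)
    | add _ _ r s => rw [lg.1]; exact ⟨Aa r.1 s.1, Aa r.2 s.2⟩
    | smul z _ r => rw [lg.2]; exact ⟨As z r.1, As z r.2⟩
    | @fld B g v hB hg _ r =>
      have hg := In_fl.2 hg
      have sp : Sep (fl g) f := fun x hx z hz => Ap.wdg_opp h.nb h.na (hg.2.2 hx) (hf.2.2 hz)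
      obtain ⟨B0, B1, b0, b1, e⟩ := h.gr.split B hB
      obtain ⟨B0', -, d0⟩ := P.adj B0 (P.bose_fld _ b0)
      obtain ⟨B1', -, d1⟩ := P.adj B1 b1.1
      obtain ⟨C0, C1, c0, c1, e'⟩ := h.gr.split C hC
      have l1 := adj_lin fun v w => d1 (fl g) v w hg.1
      have s0 := @st _ _ (h.wc0 (h.aff _ _ _ (P.bose_fld _ b0) d0 hg)
        fun v => h.gr.bose _ _ v b0 hg.1) fun u => P.loc _ _ _ _ u b0 hC hg.1 hf.1 sp
      have s1 := @st _ _ (h.wc1 (h.aff _ _ _ b1.1 d1 hg) fun v => b1.2 _ v hg.1) fun u => by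
        have n : ∀ w, B1 (fl g) (-w) = -B1 (fl g) w := fun w => by
          simpa only [neg_one_smul] using l1.2 (-1) w
        rw [e' _ _ hf.1, e' _ _ hf.1, lg.1, l1.1, ← h.gr.bose _ _ _ c0 hf.1,
          P.loc _ _ _ _ _ c0 b1.1 hf.1 hg.1 (H15.sep_symm sp), ← neg_neg (G (C1 f u)),
          ← c1.2 _ _ hf.1, n, h.gr.anti _ _ _ _ _ b1 c1 hg.1 hf.1 sp, neg_neg]
      have t1 := s1 r.2
      have t2 := As (-1) (s1 r.1)
      simp only [h.gr.inv, b1.2 _ _ hg.1, smul_neg, neg_smul, one_smul, neg_neg] at t1 t2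
      rw [e _ _ hg.1, lg.1, ← h.gr.bose _ _ _ b0 hg.1]
      exact ⟨Aa (s0 r.1) t1, Aa (s0 r.2) t2⟩
  exact cyc_of (P := P) (C := C f) (C' := C' (bar f))
    (fun v w => by simpa only [Ap.bar_bar] using H755.adj_symm ad (bar f) v w hf.bar.1)
    (α := innerSL ℂ p ∘L E.subtypeL) (β := innerSL ℂ q ∘L E.subtypeL)
    (fun v hv => NA.Afw.rs hC hf.1 (NA.Afw.big h.nb h.na (by rw [md_comm]; exact h.nab) y)
      (fun v hv => (key v hv).1 p q k) hv) (h.cyc v)

/-- **lifting** -/
theorem lift {C C' : Fld E} (hC : P.fld C) (hC' : P.fld C') (ad : IsAdj C C') {f : Fn}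
    (hf : In (Wdg a b y) f) {T : VonNeumannAlgebra (Completion D)} (le : ∀ Y ∈ Kl Γ M, Y ∈ T)
    (k : ∀ Z ∈ T, inner ℂ (C' (bar f) P.vac : Completion D) (Z P.vac) =
      inner ℂ (P.vac : Completion D) (Z (C f P.vac))) {Z} (hZ : Z ∈ T) (v w : E) :
    inner ℂ (C' (bar f) w : Completion D) (Z v) = inner ℂ (w : Completion D) (Z (C f v)) := by
  have := h.graph hC' (H755.adj_symm ad) hf.bar (p := Z (C f v)) (q := Z v) (fun Y hY => by
    have := h.graph hC ad hf (p := star Z (Y (C' (bar f) P.vac))) (q := star Z (Y P.vac))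
      (fun X hX => by
        have := k _ (mul_mem (mul_mem (star_mem (le Y hY)) hZ) (le X hX))
        simp only [ContinuousLinearMap.mul_apply] at this
        rwa [star_inner, star_inner, ← star_star Y, star_inner, star_inner]) v
    rw [star_inner, star_inner] at this
    rw [← inner_conj_symm, ← this, inner_conj_symm]) w
  rw [← inner_conj_symm, ← this, inner_conj_symm]

end Lf

end

end Vale.Agent.N352.K
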