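import Vale.Agent.N352.K.Top3

/-!
# N352, block K: the charges generate the Poincare transformations on all local fields
-/

set_option linter.all false

open Filter Topology
open Bornology (IsBounded)

namespace Vale.Agent.N352.K

noncomputable section

universe u

section enl

open P352 P352.GF P352R P352R.P P352X F
open P352.H746 (Crv vf)
open UniformSpace (Completion)
open Complex (I)

variable {D : Type u} [NormedAddCommGroup D] [InnerProductSpace ℂ D] {P R : Theory D}
  {B B' : Fld D} {f : Fn} {Z Z' : D → D}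

theorem dal_adj (h : Dn.Al P Z Z') (v w : D) : inner ℂ (Z v) w = inner ℂ v (Z' w) := by
  induction h generalizing v w with
  | one => rfl
  | add _ _ _ _ _ _ a b => rw [inner_add_left, inner_add_right, a, b]
  | smul c _ _ _ a => rw [inner_smul_left, inner_smul_right, a]; rfl
  | fld A A' g _ _ _ _ r s _ a => rw [r g _ _ s.1, a]

theorem dal_rc (u : Dn.IsEnl P R) (b : R.fld B) (b' : R.fld B') (d : Dn.IsAdj B B')
    (i : Dn.In Set.univ f) (h : Dn.Al P Z Z') :
    Dn.Al R (fun v => Z (B f v)) fun v => B' (bar f) (Z' v) := by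
  have l := fm b' (t_bar i.1)
  induction h with
  | one => exact .fld B B' f _ _ b b' d i .one
  | add X X' Y Y' _ _ p q =>
    exact (funext fun v => (fm b' (t_bar i.1)).map_add (X' v) (Y' v)) ▸ Dn.Al.add _ _ _ _ p q
  | smul c X X' _ p =>
    exact (funext fun v => (fm b' (t_bar i.1)).map_smul (star c) (X' v)) ▸ Dn.Al.smul c _ _ p
  | fld A A' g _ _ p q r s _ a => exact .fld A A' g _ _ (u.3 _ p) (u.3 _ q) r s a

theorem dal_comm {δ : ℝ → D → D} (l : ∀ᶠ r in atTop, IsLinearMap ℂ (δ r))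
    (k : ∀ C g, P.fld C → Dn.In Set.univ g → ∀ᶠ r in atTop, ∀ v, δ r (C g v) = C g (δ r v))
    (h : Dn.Al P Z Z') : ∀ᶠ r in atTop, ∀ v, δ r (Z v) = Z (δ r v) := by
  induction h with
  | one => exact .of_forall fun _ _ => rfl
  | add _ _ _ _ _ _ a b => filter_upwards [a, b, l] with r a b l v using by rw [l.1, a, b]
  | smul c _ _ _ a => filter_upwards [a, l] with r a l v using by rw [l.2, a]
  | fld A A' g _ _ p _ _ s _ a => filter_upwards [a, k A g p s] with r a k v using by rw [k, a]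

theorem dal_zero {x : D} (h : ∀ Z Z', Dn.Al P Z Z' → inner ℂ P.vac (Z x) = 0) : x = 0 := by
  let M : Submodule ℂ (Completion D) :=
    ⨅ p : {p : (D → D) × (D → D) // Dn.Al P p.1 p.2}, (ℂ ∙ (p.1.1 x : Completion D))ᗮ
  have m : ∀ u : D, (u : Completion D) ∈ M ↔ ∀ Z Z', Dn.Al P Z Z' → inner ℂ u (Z x) = 0 :=
    fun u => by
      simp only [M, Submodule.mem_iInf, Submodule.mem_orthogonal_singleton_iff_inner_left,
        Completion.inner_coe, Subtype.forall, Prod.forall]
  have := P352.BW.rs_sub P (K := M) (by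
      rw [Submodule.coe_iInf]
      exact isClosed_iInter fun w => Submodule.isClosed_orthogonal _) ((m _).2 h)
    isOpen_univ Set.univ_nonempty fun C g u c i k => (m _).2 fun Z Z' z => by
      obtain ⟨C', c', e⟩ := P.adj C c
      rw [e g _ _ i.1]
      exact (m u).1 k _ _ (.fld C' C (bar g) _ _ c' c (fun f v w t => by
        rw [← inner_conj_symm, ← inner_conj_symm v, e _ _ _ (t_bar t), H246.bar_bar]) (Ap.in_bar i) z)
  exact inner_self_eq_zero.1 ((m x).1 (this ▸ Submodule.mem_top) _ _ .one)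

/-- **the charges generate the translations and Lorentz transformations in every enlargement** -/
theorem pg_enl {A : (V → V) → D → D} {S t : Ix → Ix → Fld D} {G : D → D} (a : Tn.Der P A)
    (hP : ND.PCh P S A) (hS : ∀ m n, P.bose (S m n)) (u : Dn.IsEnl P R) (c : Dn.Conf R G S t) :
    Dn.PGen R S := by
  intro M b X L0 a0 hL hX d
  have k := fun v => a (fun _ => 1) M b X v rfl L0 a0 (fun e => ⟨one_pos, hL e⟩) d
  obtain ⟨M', b', w, y, K, e'⟩ := crv_of hX
  have k' := a.crv K e'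
  have h0 : A X R.vac = 0 := u.1 ▸ Pg.vac K k'
  refine gen_of (u.2 ▸ k) h0 fun F B f z hF hB hf => tendsto_const_nhds.congr' ?_
  have s := fun m n => R.bose_fld _ (u.4 _ (hS m n))
  obtain ⟨r0, -, cs⟩ := (dens_cur (fun m n => u.4 _ (hS m n)) hX).const hB hf hF
  have o : ∀ v, inner ℂ P.vac (A X v) = 0 := fun v =>
    (mul_eq_zero.1 ((Pg.der K k' P.vac v).unique ((hasDerivAt_const (0 : ℝ) _).congr_of_eventuallyEq
      (.of_forall fun e => (congrArg (inner ℂ · _) (P.U_vac _ _ (b' e) (K.sp e) (K.lor e)).symm).trans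
        (P.U_inner _ _ _ _ _ (K.sp e) (K.lor e)))))).resolve_left Complex.I_ne_zero
  have he := cur_herm (X := X) c.impr.herm hX hF
  have li : ∀ᶠ r in atTop, IsLinearMap ℂ fun v => Dn.cur t X (F r) v - A X v := he.mono fun r h =>
    ⟨fun v w => by
      rw [show A X (v + w) = _ from (Pg.lin K k').map_add v w, show Dn.cur t X (F r) (v + w) =
        Dn.cur t X (F r) v + Dn.cur t X (F r) w from ext_inner_right ℂ fun z => by
          simp only [h, inner_add_left]]
      exact add_sub_add_comm _ _ _ _, fun s v => by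
      rw [show A X (s • v) = _ from (Pg.lin K k').map_smul s v, show Dn.cur t X (F r) (s • v) =
        s • Dn.cur t X (F r) v from ext_inner_right ℂ fun z => by
          simp only [h, inner_smul_left], smul_sub]
      rfl⟩
  have e : cm (cur S X) (F r0) B f R.vac - A X (B f R.vac) = 0 := dal_zero (P := P) fun Z Z' p => by
    obtain ⟨B', b1, b2⟩ := R.adj B hB
    have q := c.cfs.ward (fun n x => X x n) _ _ (by
      obtain ⟨c, w, p, q⟩ := hX
      exact ⟨c, 0, 0, w, p, fun n x => by simp [q, GF.mdot]⟩) (dal_rc u hB b1 b2 hf p) F hF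
    refine tendsto_nhds_unique (tendsto_const_nhds.congr' ?_) q
    have l := fun v w => (show Z (v - w) = Z v - Z w from ext_inner_right ℂ fun z => by
      simp only [dal_adj p, inner_sub_left])
    have cm : ∀ C g, P.fld C → Dn.In Set.univ g → ∀ᶠ r in atTop, ∀ v,
        Dn.cur t X (F r) (C g v) - A X (C g v) = C g (Dn.cur t X (F r) v - A X v) := fun C g x i => by
      obtain ⟨ρ, hρ⟩ := i.2.1.isCompact.isBounded.subset_ball 0
      filter_upwards [Tn.fin_ward hS hP hF hX ρ, cur_same c.impr s hX hF (u.3 _ x) i] with r h1 h2 v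
      have := (h2 v).trans (h1 C g v x ⟨i.1, i.2.1, hρ⟩)
      rw [show ∀ v w, C g (v - w) = C g v - C g w from (fm x i.1).map_sub, sub_eq_sub_iff_sub_eq_sub]
      exact this
    filter_upwards [dal_comm li cm p, he, eventually_ge_atTop r0,
      cur_same c.impr s hX hF hB hf] with r h1 h2 h3 h4
    have h5 := h1 (B f R.vac)
    have h6 : ∀ v, inner ℂ R.vac (Z (B f v)) = inner ℂ (B' (bar f) (Z' R.vac)) v := fun v => by
      rw [← inner_conj_symm, dal_adj p, b2 _ _ _ hf.1, inner_conj_symm]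
    rw [cs r0 r le_rfl h3, show P352R.P.cm (cur S X) (F r) B f R.vac = _ from (h4 _).symm, Dn.cm,
      sub_right_comm, l, ← h5, inner_sub_right, inner_sub_right, o, sub_zero, ← u.1, ← h2,
      Completion.inner_coe, Completion.inner_coe, h6 (Dn.cur t X (F r) R.vac)]
  filter_upwards [eventually_ge_atTop r0] with r hr
  rw [h0, show B f 0 = 0 from (fm hB hf.1).map_zero, sub_zero, ← sub_eq_zero.1 e]
  exact congrArg _ (cs r0 r le_rfl hr _)

end enl

open P352.GF P352R P352R.P F
open T (Cm)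
open UniformSpace (Completion)

variable {D : Type u} [NormedAddCommGroup D] [InnerProductSpace ℂ D] {Q : Theory D} {G : D → D}
  {T : Ix → Ix → Fld D} {Γ : Completion D →L[ℂ] Completion D}
  {N : Set V → VonNeumannAlgebra (Completion D)}

open Gz (prep tf st pc iv self ext_congr conf_congr)

/-- **the local extension, with its net** -/
theorem ext5 (H : Dn.Hy Q G T Γ N) : ∃ S, Q.IsStress S ∧ Dn.Same Q T S ∧
    ∃ (E : Type u) (_ : NormedAddCommGroup E) (_ : InnerProductSpace ℂ E) (P : Theory E)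
      (k : E →ₗᵢ[ℂ] Completion D) (G' : E → E) (e : Fld D → Fld E) (t : Ix → Ix → Fld E), ∃ Γ' N',
      Dk.Exk Q Γ N P k G' e ∧ Dn.Stress P (fun m n => e (S m n)) ∧ Dn.MfA P ∧ Dn.FSL P ∧
        GI.Cy P ∧ Dn.Net P G' Γ' N' ∧ Dn.Aff P N' ∧ Dn.Desc P G' t ∧
        ∀ R, Dn.IsEnl P R → Dn.Gr R G' →
          Dk.Cnf R G' (fun m n => e (S m n)) t ∧ Dn.PGen R fun m n => e (S m n) := by
  have g := gr.1 H.grading
  have Z := hz H
  obtain ⟨h, A, m, l, a⟩ := prep Z
  have o := self Z m l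
  obtain ⟨M, n, d, d'⟩ := net_of3 a (rs_mfa (h := h) m) rs_cy ((rs_rst (h := h)).net
    (rg_coe g H.even) H.net) ((rs_rst (h := h)).rel (H.strong.elim (rel_of_aff g H.net) id))
  let x : P352X.EG.Cg _ := ⟨rs Q h, _, A, _, M, Br.lng.1 n⟩
  have m' := Br.mfa.1 (rs_mfa (h := h) m)
  have l' := rs_fsl (h := h) l
  have k := iv Z m l a
  obtain ⟨S, S', h1, h2, b, -, c, h5⟩ := four (U.rows _) x m' l' k (Br.stress0.1 (st (h := h) Z))
    (pc Z m a) (rs_sect (h := h) (sect.1 o.sect)) g (st0_of g o.stress o.poincare) o.poincare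
    fun m n => rf_xt (tf Z m n)
  obtain ⟨E, P, G1, e, L, ⟨y, z⟩, ⟨gn, q, q'⟩, s', sc, ds, r⟩ := exten2 x m' l' k h1 h2
  have s := fun m n => Q.bose_fld _ (b.bose m n)
  have u := (rs_rst (h := h)).ext (Γ := Γ) (fun _ => rf_xt) y
  obtain ⟨N0, n0, w0⟩ := net_dia x d' z
  obtain ⟨N', n', w'⟩ := push (rs_rst (h := h)) n0 H.net.ext w0
  obtain ⟨Γ', N'', p, p'⟩ := pull _ ((N352.G.X.cs_dense Q).mono (by
    rintro _ ⟨w, rfl⟩
    exact ext_mem u w.2)) u.G u.U n' w'
  have cg := fun m n f v (hf : IsTest f) => ext_congr y (rs_fld (h := h) (s m n))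
    ((rs Q h).bose_fld _ (h1.bose m n)) (fun f v hf => (io Q).injective
      ((rf_xt (s m n) f v hf).trans (h5 m n f v hf).symm)) hf v
  obtain ⟨A', a'⟩ := (GI.thm _).gen P G1 y.toGr (Subtype.ext ((y.G _).trans (by
    rw [y.vac]
    exact (n.ext _).trans (congrArg _ n.vac)))) (F.cy.1 gn.1) (Br.mfa.2 q) q'
  have pg := pgen_congr cg (pg_ext y (rs_cy (h := h)) a.der a'.der h1.bose h2 gn sc
    (cnf y.toGr (r P ⟨rfl, rfl, fun _ h => h, fun _ h => h⟩ y.toGr)).toConf)
  have bo := fun m n => u.bos _ (b.bose m n)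
  have pc' := pch_of a' (Br.mfa.2 q) bo pg
  exact ⟨S', b, c, E, _, _, P, _, G1, _, _, Γ', N'', ⟨u, fun O Y k => (rw_of d (P352X.EG.SGx.g2 x)
      (P352X.EG.SGx.gs x) n.gam z O Y k).imp (⟨·⟩) (⟨·⟩)⟩,
    stress_congr s' bo cg, mfa.2 (Br.mfa.2 q), fsl.2 q', F.cy.1 gn.1, p, p',
    desc ds, fun R u w => have r := r R (enl.1 u) (gr.1 w)
      (fun x => ⟨x, pg_enl a'.der pc' bo u x.toConf⟩) (cnf (gr.1 w) ⟨conf_congr cg r.1, r.2⟩)⟩

end

end Vale.Agent.N352.K
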