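import Vale.Agent.N352.U.All

/-!
# N352, block K: the extension with the local potential, with further properties
-/

set_option linter.all false

open Filter Topology
open scoped ComplexConjugate

namespace Vale.Agent.N352.G.X

open Vale.Agent.P352 Vale.Agent.P352.GF Vale.Agent.P352.BW Vale.Agent.P352.H246
open Vale.Agent.P352.H496 Vale.Agent.P352.H755 Vale.Agent.P352.H15
open Vale.Agent.P352.SubConf (IsAdj)
open Vale.Agent.P352X Vale.Agent.P352X.EB
open UniformSpace (Completion)

noncomputable section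

variable {D : Type*} [NormedAddCommGroup D] [InnerProductSpace ℂ D] {c : Ctx D}

variable (c) in
/-- the extension with the local potential -/
structure FINp {D' : Submodule ℂ (Completion D)} (Q' : Theory D') (G' : D' → D')
    (e : Fld D → Fld D') (L : Fld D') : Prop where
  ext : ExtC c.Q c.Γ Q' G' e
  str : Q'.IsStress fun m n => e (c.T m n)
  sca : Q'.IsScalar L 2
  tr : ∀ f v, IsTest f → GF.tr (fun m n => e (c.T m n)) f v = (3 : ℂ) • L (box f) v
  pot : ∀ f, IsTest f → (L f Q'.vac : Completion D) = c.l f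
  gen : ∀ A, Q'.fld A → ∃ (n : ℕ) (B : Fin n → Fld D'), (∀ i, B i = L ∨ ∃ C, c.Q.fld C ∧
    ∀ f v, IsTest f → B i f v = e C f v) ∧ ∀ f v, A f v = ∑ i, B i f v

open Fin' in
theorem fin_p (t : E0 c) (hc : COV c.toCg) (h0 : COV0 c.toCg) (o : OPS (lx hc))
    {π : ∀ E : Submodule ℂ (Completion D), Theory E → Prop}
    (af : EXT (lx hc) → WP (lx hc) → FS (lx hc) → ∀ Q : Theory (lx hc).Dn,
      (Q.vac : Completion D) = c.Om → (∀ B, Q.fld B ↔ (lx hc).Fs (fun _ => True) B) →
      π _ Q) : ∃ D' Q' G' e L, FINp c (D' := D') Q' G' e L ∧ π D' Q' := by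
  set x := lx hc with hx
  have t1 : E1 x := ⟨t, o⟩
  have E := ext_row t1 (tmp_row t1 (jb_row t1))
  have w := wp_row t1 E
  have F := fs_row w
  have V' := cv_row t1 E w F
  have r := rec_row t F V'
  have h2 : ∀ p : Lb c.toCg, x.Is (some p) p.B p.B' := fun p =>
    ⟨p.h, p.h', p.a, fun _ _ => ⟨rfl, rfl⟩⟩
  have gd := Rq.gd t.sg V'
  have adj : ∀ B B' f (v : x.Dn) (u : D), c.Q.fld B → IsAdj B B' → IsTest f → Cyc c.Q u →
      inner ℂ (ee x B f v : Completion D) (u : Completion D) =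
        inner ℂ (v : Completion D) (B' (bar f) u : Completion D) := by
    intro B B' f v u hB hA hf hu
    have e : B' (bar f) u = ∑ i, ((dec c.toCg B).2 i).B' (bar f) u :=
      ext_inner_left ℂ fun y => by
        rw [← hA f y u hf, dec_spec hB f y hf, sum_inner, inner_sum]
        exact Finset.sum_congr rfl fun i _ => ((dec c.toCg B).2 i).a f y u hf
    rw [e, coe_sum, inner_sum, ee, Submodule.coe_sum, sum_inner]
    exact Finset.sum_congr rfl fun i _ => F.aff _ _ _ f v u (h2 _) hf hu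
  have eq : ∀ (p : Lb c.toCg) f v, IsTest f → x.o (some p) f v = ee x p.B f v := fun p f v hf =>
    ext_C c.Q fun y hy => by rw [F.aff _ _ _ f v y (h2 p) hf hy, adj _ _ f v y p.h p.a hf hy]
  have agree : ∀ B f (v : x.Dn) (u : D), c.Q.fld B → IsTest f → Cyc c.Q u →
      (v : Completion D) = u → (ee x B f v : Completion D) = (B f u : D) := by
    intro B f v u hB hf hu e
    obtain ⟨B', -, hA⟩ := c.Q.adj B hB
    refine (cs_dense c.Q).eq_of_inner_left ℂ fun y => ?_
    rw [adj B B' f v y hB hA hf y.2, e, Completion.inner_coe, Completion.inner_coe, hA f u y hf]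
  have cyc : ∀ S : Submodule ℂ x.Dn, (∀ v : x.Dn, (v : Completion D) = c.Om → v ∈ S) →
      (∀ p f v, IsTest f → v ∈ S → x.o (some p) f v ∈ S) → ∀ u, Cyc c.Q u →
      ∃ v ∈ S, (v : Completion D) = u := fun S a1 a2 u hu =>
    (hu (cs c.Q ⊓ (S.map x.Dn.subtype).comap
      (Completion.toComplL : D →L[ℂ] Completion D).toLinearMap)
      ⟨cyc_vac, ⟨c.Om, F.vac⟩, a1 _ rfl, rfl⟩ (by
        rintro B f u hB hf ⟨h, v, hv, e⟩
        exact ⟨cyc_fld hB hf h, ee x B f v, S.sum_mem fun i _ => a2 _ f v hf hv,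
          agree B f v u hB hf h e⟩)).2
  have cyc' : ∀ P : Lab c → Prop, (∀ p, P (some p)) → ∀ S : Submodule ℂ x.Dn,
      (∀ v : x.Dn, (v : Completion D) = c.Om → v ∈ S) →
      (∀ a f v, P a → IsTest f → v ∈ S → x.o a f v ∈ S) → Dense (S : Set x.Dn) :=
    fun P hP S a1 a2 v => by
      rw [closure_subtype]
      refine closure_mono ?_ (cs_dense c.Q v)
      rintro _ ⟨u, rfl⟩
      exact cyc S a1 (fun p f v hf hv => a2 _ f v (hP p) hf hv) u u.2
  have ud := fun s L a v hs hL => Rq.ud V' (s := s) (L := L) hs hL a v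
  have ex : ∀ (P : Lab c → Prop) (Q' : Theory x.Dn), (∀ p, P (some p)) →
      (Q'.vac : Completion D) = c.Om → Q'.U = x.Ud → (∀ B, Q'.fld B ↔ x.Fs P B) →
      (∀ B, Q'.bose B ↔ x.Fs P B ∧ ∀ f v, IsTest f → B f (x.Gd v) = x.Gd (B f v)) →
      Gr Q' x.Gd → ExtC c.Q c.Γ Q' x.Gd (ee x) := fun P Q' hP a1 a2 a3 a4 a5 =>
    ⟨a5, fun u hu => let ⟨v, _, e⟩ := cyc ⊤ (fun _ _ => trivial) (fun _ _ _ _ _ => trivial) u hu
      e ▸ v.2, a1, gd, fun s L a v hs hL => by rw [a2, ud s L a v hs hL, Ug_apply _ hs hL],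
      fun B _ => (a3 _).2 ⟨_, _, fun i => hP _, rfl⟩, fun B hB => (a4 _).2
        ⟨⟨_, _, fun i => hP _, rfl⟩, fun f v hf => ext_C c.Q fun y hy => by
          have hB1 := c.Q.bose_fld _ hB
          obtain ⟨B', -, hA⟩ := c.Q.adj B hB1
          have pa := t.bas.padj false B B' hA (fun f v hf =>
            (c.hN.bose B f v hB hf).trans (one_smul _ _).symm) _ y (Ap.test_bar hf)
          rw [sg_false, one_smul] at pa
          rw [adj B B' f _ y hB1 hA hf hy, gd, gd, ← t.sg.gs, star_inner, star_inner,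
            c.hN.ext, c.hN.ext, adj B B' f _ _ hB1 hA hf (cyc_G (c := c.toCg) hy), pa]⟩,
      fun B B' a b d f v u hf => by
        have e : ee x B' (bar f) u = ∑ i, x.o (x.dag (some ((dec c.toCg B).2 i))) (bar f) u :=
          ext_C c.Q fun y hy => by
            have hb := Ap.test_bar hf
            rw [adj B' B _ u y b (H755.adj_symm d) hb hy, dec_spec a _ y (Ap.test_bar hb), coe_sum,
              inner_sum, Submodule.coe_sum, sum_inner]
            exact Finset.sum_congr rfl fun i _ =>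
              (F.aff _ _ _ _ u y (h2 ((dec c.toCg B).2 i).dag) hb hy).symm
        rw [e, ee, sum_inner, inner_sum]
        exact Finset.sum_congr rfl fun i _ => F.herm _ f v u hf, agree⟩
  obtain ⟨Q0, a1, a2, a3, a4, a5⟩ := r (· ≠ none) (fun a ha => by
    cases a with
    | none => exact absurd rfl ha
    | some p => exact Option.some_ne_none _) (cyc' _ fun p => Option.some_ne_none p)
  obtain ⟨Q1, b1, b2, b3, b4, b5⟩ := r (fun _ => True) (fun _ _ => trivial) (cyc' _ fun _ => trivial)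
  have s0 := str0 (c := c.toCg) c.hT h0 (ex _ Q0 (fun p => Option.some_ne_none p) a1 a2 a3 a4 a5)
    fun A hA => by
      obtain ⟨n, b, hb, rfl⟩ := (a3 A).1 hA
      choose p hp using fun i => Option.ne_none_iff_exists'.1 (hb i)
      exact ⟨n, fun i => (p i).B, fun i => (p i).h, fun f v hf =>
        Finset.sum_congr rfl fun i _ => by rw [hp, eq _ f v hf]⟩
  have enl : IsEnl Q0 Q1 := ⟨Subtype.ext (b1.trans a1.symm), b2.trans a2.symm,
    fun A hA => (b3 A).2 (((a3 A).1 hA).imp fun n h => h.imp fun b h => ⟨fun _ => trivial, h.2⟩),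
    fun A hA => (b4 A).2 (((a4 A).1 hA).imp_left fun h => h.imp fun n h => h.imp fun b h =>
      ⟨fun _ => trivial, h.2⟩)⟩
  refine ⟨x.Dn, Q1, x.Gd, ee x, x.o none, ⟨ex _ Q1 (fun _ => trivial) b1 b2 b3 b4 b5,
    H746.isStress_enl enl s0,
    ⟨(b4 _).2 ⟨Rq.fs_one trivial, fun f v hf => Subtype.ext ?_⟩, F.herm none, ?_⟩, ?_,
    fun f hf => ?_, fun A hA => ?_⟩, af E w F Q1 b1 b3⟩
  · refine (Rq.par t.sg V' none hf v).trans ?_
    rw [gd]
    exact one_smul _ _
  · intro s L a f v hs hL hf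
    apply Subtype.ext
    have := V'.cov none ⟨⟨s, L, a, hs, hL⟩, false⟩ 1 (fun _ => ((s ^ 2 : ℝ) : ℂ)) (fun _ => none) f v
      (x.Ud s L a v) (fun g hg => by
        rw [Fin.sum_univ_one, Complex.conj_ofReal]
        exact pot_U c ⟨⟨s, L, a, hs, hL⟩, false⟩ hg) hf (ud s L a v hs hL)
    rw [b2, this, Submodule.coe_smul, ud _ _ _ _ hs hL, Fin.sum_univ_one,
      show (4 - 2 : ℝ) = (2 : ℕ) by norm_num, Real.rpow_natCast]
    rfl
  · let p : Ix → Lb c.toCg := fun m => ⟨c.T m m, c.T m m, false, c.Q.bose_fld _ (c.hT.bose m m),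
      c.Q.bose_fld _ (c.hT.bose m m), c.hT.herm m m, fun f v hf =>
        (c.hN.bose _ f v (c.hT.bose m m) hf).trans (one_smul _ _).symm⟩
    have q2 : ∀ m f v, IsTest f → ee x (c.T m m) f v = x.o (some (p m)) f v := fun m f v hf =>
      (eq (p m) f v hf).symm
    have hc : ∀ f v, In Set.univ f →
        GF.tr (fun m n => ee x (c.T m n)) f v = (3 : ℂ) • x.o none (box f) v := by
      intro f v hf
      have z := V'.zero 5 (Fin.cons (-3) fun m => eta m) (Fin.cons none fun m => some (p m))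
        (Fin.cons (box f) fun _ => f) v (Fin.cases (Ap.in_box hf) fun _ => hf) (by
          rw [Fin.sum_univ_succ]
          simp only [Fin.cons_zero, Fin.cons_succ, neg_smul]
          rw [neg_add_eq_zero]
          refine (c.hl.trace f hf.1).trans ?_
          rw [GF.tr, coe_sum]
          exact Finset.sum_congr rfl fun m _ => by rw [Completion.coe_smul]; rfl)
      rw [Fin.sum_univ_succ] at z
      simp only [Fin.cons_zero, Fin.cons_succ, neg_smul, ← q2 _ _ _ hf.1] at z
      exact (neg_add_eq_zero.1 z).symm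
    rintro _ v ⟨f, rfl⟩
    obtain ⟨P, hP⟩ := box_clm
    obtain ⟨-, u, -, -, u2, -, u4⟩ := ST.exists_cut f
    have c1 : Continuous fun g : Sch => GF.tr (fun m n => ee x (c.T m n)) (ev g) v :=
      continuous_finset_sum _ fun m _ =>
        (continuous_finset_sum _ fun i _ =>
          F.cont (some ((dec c.toCg (c.T m m)).2 i)) v).const_smul (eta m : ℂ)
    have c2 : Continuous fun g : Sch => (3 : ℂ) • x.o none (box (ev g)) v := by
      simp only [← hP]
      exact ((F.cont none v).comp P.continuous).const_smul (3 : ℂ)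
    exact tendsto_nhds_unique ((c1.tendsto f).comp u4) (((c2.tendsto f).comp u4).congr
      fun n => (hc _ v ⟨⟨u n, rfl⟩, u2 n, Set.subset_univ _⟩).symm)
  · obtain ⟨g, rfl⟩ := hf
    obtain ⟨-, u, -, -, u2, -, u4⟩ := ST.exists_cut g
    have c1 : Continuous fun g : Sch => (x.o none (ev g) Q1.vac : Completion D) :=
      continuous_subtype_val.comp (F.cont none _)
    refine tendsto_nhds_unique ((c1.tendsto g).comp u4) (((c.hl.cont.tendsto g).comp u4).congr
      fun n => ?_)
    have hi : In Set.univ (ev (u n)) := ⟨⟨u n, rfl⟩, u2 n, Set.subset_univ _⟩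
    show c.l _ = (x.o none _ _ : Completion D)
    rw [F.oW none _ [] _ hi.1 (fun _ h => nomatch h) (b1.trans w.nil.symm),
      E.cw _ (List.forall_mem_singleton.2 hi)]
    exact (o.vac none _ hi).symm
  · obtain ⟨n, b, -, rfl⟩ := (b3 A).1 hA
    refine ⟨n, fun i => x.o (b i), fun i => ?_, fun _ _ => rfl⟩
    dsimp only
    cases b i with
    | none => exact .inl rfl
    | some p => exact .inr ⟨p.B, p.h, eq p⟩

/-- the domain is generated by the fields -/
theorem cyc_row {Λ : Type*} {x : Lt c Λ} (w : WP x) (F : FS x) {Q : Theory x.Dn}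
    (b1 : (Q.vac : Completion D) = c.Om) (b3 : ∀ B, Q.fld B ↔ x.Fs (fun _ => True) B)
    (v : x.Dn) : Cyc Q v := fun S a b => by
  have k : ∀ (u : Wd Λ) (v : x.Dn), TW u → (v : Completion D) = x.W u → v ∈ S := fun u => by
    induction u with
    | nil => exact fun v _ e => (Subtype.ext (e.trans (w.nil.trans b1.symm)) : v = Q.vac) ▸ a
    | cons p u ih =>
      intro v h e
      obtain ⟨h1, h2⟩ := Cq.tw_cons.1 h
      rw [show v = x.o p.1 p.2 ⟨_, Fq.W_mem h2⟩ from
        Subtype.ext (e.trans (F.oW _ _ u _ h1 h2 rfl).symm)]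
      exact b _ _ _ ((b3 _).2 (Rq.fs_one trivial)) h1 (ih _ h2 rfl)
  induction v using Fq.ind with
  | h0 => exact S.zero_mem
  | h1 v v' p q => exact S.add_mem p q
  | h2 z v p => exact S.smul_mem z p
  | h3 u hu => exact k u _ hu rfl

open U in
/-- the conformal symmetry of the extension -/
theorem confi_p (hI : U.IVac c.Q) (hM : MfAll c.Q) (hF : FSL c.Q)
    {D' : Submodule ℂ (Completion D)} {Q' : Theory D'} {G' e L} (fin : FINp c Q' G' e L)
    (Q'' : Theory D') (n : IsEnl Q' Q'') : IsImpr Q'' (fun m n => e (c.T m n))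
      (improve (fun m n => e (c.T m n)) L) ∧ ConfAct Q'' (improve (fun m n => e (c.T m n)) L) ∧
      (Gr Q'' G' → CFS Q'' G' (improve (fun m n => e (c.T m n)) L) ∧
      ∀ B, Q'.fld B → ∃ (n : ℕ) (p : Fin n → Bool) (C : Fin n → Fld D'),
        (∀ i, DescS Q'' G' (improve (fun m n => e (c.T m n)) L) (p i) (C i)) ∧
        ∀ f v, IsTest f → B f v = ∑ i, C i f v) := by
  obtain ⟨h1, h2, h3, h4, -, h6⟩ := fin
  obtain ⟨h7, h8⟩ := scal_row D' Q' _ L h2 h3 h4 Q'' n
  refine ⟨h7, h8, fun g => ?_⟩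
  have hT'' := H746.isStress_enl n h2
  have hL'' := scalar_enl n h3
  let M : D' →ₗ[ℂ] D' :=
    { toFun := G'
      map_add' := fun v w => ext_inner_right ℂ fun y => by simp only [g.herm, inner_add_left]
      map_smul' := fun z v => ext_inner_right ℂ fun y => by
        simp only [g.herm, inner_smul_left, RingHom.id_apply] }
  have gt : ∀ m n f v, IsTest f → improve (fun m n => e (c.T m n)) L m n f (G' v) =
      M (improve (fun m n => e (c.T m n)) L m n f v) := fun m n f v hf => by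
    simp only [improve, map_add, map_sub, map_smul, map_sum, g.bose _ _ v (hT''.bose m n) hf,
      fun k l => g.bose _ _ v hL''.1 (Ap.test_pd k (Ap.test_pd l hf))]
    rfl
  let k : CA.G.Cx D' := ⟨Q'', _, G', isT_of_impr h7 hT'',
    fun m n k l f g v hf hg h => sub_eq_zero.1 (h7.self m n k l f g v hf hg h), h7.cov,
    ⟨_, hT''.bose o o⟩, g.inv, g.herm, gt, g.GU,
    fun C hC => by
      obtain ⟨C1, C2, a1, a2, e⟩ := g.split C hC
      refine ⟨2, ![1, -1], ![C1, C2], fun j => ?_, fun k v hk => ?_⟩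
      · fin_cases j
        exacts [Q''.bose_fld _ a1, a2.1]
      · rw [e k _ hk, g.bose C1 k v a1 hk, a2.2 k v hk, show G' _ = M _ from rfl, map_add, map_neg]
        simp [M, g.inv],
    g.mul, Mn.mx_of c.toCg (mixi _) hI h7 (.id ℂ _) D'.subtypeₗᵢ (fun _ _ => rfl)
      (by rw [n.vac]; exact h1.vac.symm) (fun s M a z v hs hM => by
        rw [n.U]
        show inner ℂ _ (Q'.U s M a v : Completion D) = _
        rw [h1.U _ _ _ _ hs hM]
        exact ue_inner hs hM _ _ _) fun F _ => ⟨_, rfl⟩⟩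
  obtain ⟨x, f0, al⟩ := CA.G.all_thm k
  have tl : CA.G.Tl k := fun _ _ => CA.G.clf k g
  have cf : CFS Q'' G' (improve (fun m n => e (c.T m n)) L) := CA.G.cfs' al tl
  refine ⟨cf, fun B hB => ?_⟩
  obtain ⟨m, C, hC, h⟩ := h6 B hB
  have key : ∀ i, ∃ (r : ℕ) (p : Fin r → Bool) (C' : Fin r → Fld D'),
      (∀ j, DescS Q'' G' (improve (fun m n => e (c.T m n)) L) (p j) (C' j)) ∧
      ∀ f v, IsTest f → C i f v = ∑ j, C' j f v := fun i => by
    rcases hC i with h | ⟨C', a, b⟩
    · exact ⟨1, fun _ => false, fun _ => L, fun _ => EG.desc_scal cf hL'', fun _ _ _ => by simp [h]⟩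
    · obtain ⟨r, p, C'', a1, a2⟩ := desc_fld h1 (cov0_row hM hF) n hF g (CA.G.descM al tl)
        (EG.H.md (EG.e0_thm c.toCg) hM) a
      exact ⟨r, p, C'', a1, fun f v hf => (b f v hf).trans (a2 f v hf)⟩
  choose r p C' b1 b2 using key
  let E := (Fintype.equivFin (Σ i, Fin (r i))).symm
  refine ⟨_, fun j => p (E j).1 (E j).2, fun j => C' (E j).1 (E j).2, fun j => b1 _ _,
    fun f v hf => (h f v).trans ?_⟩
  rw [E.sum_comp fun j => C' j.1 j.2 f v, Fintype.sum_sigma]
  exact Finset.sum_congr rfl fun i _ => b2 i f v hf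

end

end Vale.Agent.N352.G.X
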