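import Vale.Agent.N352.U.All
import Vale.Agent.N352.SlB

/-!
# N352, block K: the potential is local relative to the dual net, for degenerate vacua
-/

set_option linter.all false

open Filter Topology Set
open scoped SchwartzMap
open Bornology (IsBounded)

namespace Vale.Agent.N352.K

open Vale.Agent.P352 Vale.Agent.P352.GF Vale.Agent.P352.BW Vale.Agent.P352.H246
open Vale.Agent.P352.H496 Vale.Agent.P352.H755 Vale.Agent.P352.H15
open Vale.Agent.P352X Vale.Agent.P352X.EB U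
open Vale.Agent.P352X.EG (Cg)
open UniformSpace (Completion)

noncomputable section

universe u

variable {D : Type u} [NormedAddCommGroup D] [InnerProductSpace ℂ D] {c : Cg D}
  {Z : VonNeumannAlgebra (Completion D)} {O : Set V} {Y : Completion D →L[ℂ] Completion D}

theorem opp_fb (hZ : Ctr c Z) (h : Sl.Opp c.N O Y) : Y ∈ Z.commutant ∧
    ∃ ops : Set (Completion D →L[ℂ] Completion D), ops.Countable ∧ (∀ X ∈ ops, X ∈ Z.commutant) ∧
      ∀ (y : Fib c Z) F0 R k e, Lnk y F0 R k e → (∀ X ∈ ops, X ∈ y.b.P) →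
        ∃ Y', y.b.Rl Y Y' ∧ Sl.Opp k.N O Y' := by
  induction h with
  | one => exact ⟨one_mem _, ∅, countable_empty, by simp, fun y _ _ _ _ _ _ =>
      ⟨1, ⟨one_mem _, Fb.π_one⟩, .one⟩⟩
  | mul a b y X W ha hb hab hO hX _ ih =>
    obtain ⟨p, ops, q, r, s⟩ := ih
    have m : X ∈ Z.commutant := VonNeumannAlgebra.mem_commutant_iff.2 fun z hz =>
      (comm_mul hX (hZ.sub _ z hz).2).symm
    refine ⟨mul_mem m p, insert X ops, q.insert X, forall_mem_insert.2 ⟨m, r⟩,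
      fun x F0 R k e L t => ?_⟩
    obtain ⟨t1, t2⟩ := forall_mem_insert.1 t
    obtain ⟨Y', u, w⟩ := s x F0 R k e L t2
    exact ⟨_, Fb.Rl.mul ⟨t1, rfl⟩ u, .mul a b y _ _ ha hb hab hO (L.net _ X hX t1) w⟩

/-- **the potential is local relative to products from different wedges** -/
theorem opp_loc (hZ : Ctr c Z) (hM : MfAll c.Q) (hF : FSL c.Q) {T : Ix → Ix → Fld D}
    (hT : c.Q.IsStress T) (hA : ND.PCh c.Q T c.A) {l : Fn → Completion D} (hl : IsPot c.Q T l)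
    {f : Fn} (hf : In O f) (h : Sl.Opp c.N O Y) :
    inner ℂ (star Y c.Om) (l f) = inner ℂ (l (bar f)) (Y c.Om) := by
  obtain ⟨m0, ops, o1, o2, o3⟩ := opp_fb hZ h
  obtain ⟨κ, hκ⟩ := hl.exists_clm
  let Λ : Sch →L[ℂ] Completion D := κ ∘L SchwartzMap.compCLMOfContinuousLinearEquiv ℂ
    (EuclideanSpace.equiv (Fin 4) ℝ)
  have hΛ : ∀ f, Λ f = l (ev f) := fun f => hκ _
  obtain ⟨X, F, y, S, s, a1, a2, a3, a4, -, a6⟩ := pack hZ hM hF
    (range fun q : Ix × Ix => T q.1 q.2) (insert Y ops) (range fun j => Λ (tot V j)) ∅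
    (countable_range _) (o1.insert Y) (countable_range _) countable_empty
    (by rintro _ ⟨q, rfl⟩; exact c.Q.bose_fld _ (hT.bose _ _)) (forall_mem_insert.2 ⟨m0, o2⟩)
    (by simp)
  have m : ∀ f, Λ f ∈ S := fun f => a1.closure_subset
    (tot_mem Λ S (fun j => S.le_topologicalClosure (a3 _ ⟨j, rfl⟩)) f)
  have ml : ∀ f, IsTest f → l f ∈ S := by
    rintro _ ⟨f, rfl⟩
    exact hΛ f ▸ m f
  have aY := a4 Y (mem_insert _ _) _ a2
  refine s.glue _ aY.2 _ (ml _ hf.1) _ (ml _ hf.bar.1) _ aY.1 ?_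
  haveI := o1.to_subtype
  filter_upwards [a6, s.temp V Λ m, s.all fun W : ops => s.top W.1 (o2 _ W.2)
    (fun v hv => (a4 _ (mem_insert_of_mem _ W.2) v hv).1)
    fun v hv => (a4 _ (mem_insert_of_mem _ W.2) v hv).2] with x ⟨k, e, L⟩ q r
  have h0 : ∀ m n, T m n ∈ range fun q : Ix × Ix => T q.1 q.2 := fun m n => ⟨(m, n), rfl⟩
  have m' : ∀ f, IsTest f → l f ∈ (y x).b.L := by
    rintro _ ⟨f, rfl⟩
    exact hΛ f ▸ q.1 f
  obtain ⟨Y', r1, r2⟩ := o3 _ _ _ k e L fun W hW => r ⟨W, hW⟩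
  rw [r1.ap (y x).b.om, r1.star.ap (y x).b.om, L.om]
  exact Sl.loc_net k L.uv L.mf L.fs (L.str T h0 hT hA)
    (L.st0 T h0 ⟨hT.bose, hT.symm, hT.herm, fun m n L a f v => hT.cov m n 1 L a f v one_pos,
      hT.conserved, hT.charge⟩ hA).2 (L.pot h0 hl m' (by simpa only [hΛ] using q.2)) hf r2

open Zc G in
/-- the centre, for the explicit net -/
theorem ctr' (c : Cg D) (hI : IVac c.Q) :
    Ctr ⟨c.Q, c.G, c.A, c.Γ, fun O => gv (Sn c O), lng⟩ (Zn c) := by
  have ab : ∀ z ∈ Zn c, z ∈ (Zn c).commutant := fun z hz =>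
    mem_cc.2 (sub_gv sz_star z (.inl ⟨_, _, 0, np0, .inl (zn_w np0 hz).1⟩))
  have rs := EG.SGx.rs (c := c) (O := Metric.ball 0 1) Metric.isOpen_ball
    (Metric.nonempty_ball.2 one_pos)
  refine ⟨⟨Kin.norm_om, ab, rs.mono ?_⟩, fun O z hz =>
    ⟨sub_gv (sn_star _) z (.inr hz), (mem_gv (sn_star _)).2 ?_⟩, fun s L a => ?_, ?_,
    fun v hv => Metric.mem_closure_iff.2 fun ε hε => ?_⟩
  · rintro _ ⟨X, m, rfl⟩
    refine ⟨X, VonNeumannAlgebra.mem_commutant_iff.2 fun z hz => (comm_mul m ?_).symm, rfl⟩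
    exact bd_com Metric.isBounded_ball fun a b y h => (zn_w h hz).2
  · rintro X (⟨K, -, b, k⟩ | k)
    · exact comm_mul k (bd_com b fun a b y h => (zn_w h hz).2)
    · exact comm_mul k (ab z hz)
  · by_cases h : 0 < s ∧ IsLor L
    · exact zn_u (c := c) ⟨⟨s, L, a, h.1, h.2⟩, false⟩
    · rw [Ug, dif_neg h]
      exact one_mem _
  · have := zn_u (EG.Sh.gm c true)
    rwa [((EG.sg_row c).gm true).1] at this
  · obtain ⟨_, ⟨Y, m, rfl⟩, k⟩ := rs.exists_dist_lt v hε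
    obtain ⟨z, a, b⟩ := zn_vac hI Metric.isBounded_ball m
    refine ⟨_, ⟨z, a, rfl⟩, lt_of_le_of_lt ?_ k⟩
    have i : ∀ y, Ut c.Q y (v - z c.Om) = v - z c.Om := fun y => by
      rw [map_sub, b.1]
      exact congrArg (· - _) (hv y)
    have e := norm_inner_le_norm (𝕜 := ℂ) (v - z c.Om) (v - Y c.Om)
    rw [inner_sub_right, ← b.2 _ i, ← inner_sub_right, inner_self_eq_norm_sq_to_K] at e
    norm_cast at e
    rw [dist_eq_norm, dist_eq_norm]
    refine le_of_not_gt fun q : _ < ‖v - z c.Om‖ => ?_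
    rw [abs_of_nonneg (sq_nonneg _)] at e
    nlinarith [norm_nonneg (v - Y c.Om)]

end

end Vale.Agent.N352.K
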