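import Vale.Agent.N352.K.Lift
import Vale.Agent.N352.K.Vec
import Vale.Agent.N352.K.Fin

/-!
# N352, block K: the extension is affiliated to the dual net
-/

set_option linter.all false

open Filter Topology Set
open Bornology (IsBounded)

namespace Vale.Agent.N352.K

open Vale.Agent.P352 Vale.Agent.P352.GF Vale.Agent.P352.BW Vale.Agent.P352.H246
open Vale.Agent.P352.H496 Vale.Agent.P352.H755 Vale.Agent.P352.H15
open Vale.Agent.P352.SubConf (IsAdj)
open Vale.Agent.P352X Vale.Agent.P352X.EB P352R.Tw P352W.Net U G G.X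
open Vale.Agent.P352X.EG (Cg)
open UniformSpace (Completion)

noncomputable section

section hilbert

variable {H : Type*} [NormedAddCommGroup H] [InnerProductSpace ℂ H] [CompleteSpace H]
  {N : Set V → VonNeumannAlgebra H} {O : Set V} {X Y : H →L[ℂ] H}

theorem opp_mul (h : Sl.Opp N O X) (k : Sl.Opp N O Y) : Sl.Opp N O (X * Y) := by
  induction h with
  | one => rwa [one_mul]
  | mul a b y X Z ha hb hab hO hX _ ih => exact mul_assoc X Z Y ▸ .mul a b y X _ ha hb hab hO hX ih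

theorem opp_star (h : Sl.Opp N O X) : Sl.Opp N O (star X) := by
  induction h with
  | one => rw [star_one]; exact .one
  | mul a b y X Z ha hb hab hO hX _ ih =>
    rw [star_mul, ← mul_one (star X)]
    exact opp_mul ih (.mul a b y _ _ ha hb hab hO (star_mem hX) .one)

variable (N O) in
/-- the twisted algebras of the regions, in the class `p`, in the wedges opposite to `O` -/
def St (p : Set V → Prop) (Γ : H →L[ℂ] H) : Set (H →L[ℂ] H) :=
  {Y | ∃ a b y K, Zc.Np a b ∧ O ⊆ Wdg a b y ∧ K ⊆ Wdg b a y ∧ p K ∧ Y ∈ Kl Γ (N K)}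

theorem st_star {p Γ} : ∀ Y ∈ St N O p Γ, star Y ∈ St N O p Γ :=
  fun _ ⟨a, b, y, K, h1, h2, h3, h4, h5⟩ => ⟨a, b, y, K, h1, h2, h3, h4, star_mem h5⟩

end hilbert

universe u

variable {D : Type u} [NormedAddCommGroup D] [InnerProductSpace ℂ D]

/-- the fields of `P` are affiliated to the dual net -/
def Afd (p : Set V → Prop) (Γ : Completion D →L[ℂ] Completion D)
    (N : Set V → VonNeumannAlgebra (Completion D)) {E : Submodule ℂ (Completion D)}
    (P : Theory E) : Prop :=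
  ∀ O B B' f, P.fld B → IsAdj B B' → In O f → ∀ Y ∈ vn (St N O p Γ), ∀ v w : E,
    inner ℂ (B' (bar f) w : Completion D) (Y v) = inner ℂ (w : Completion D) (Y (B f v))

theorem afd_of {x : X.Ctx D} {Z} (hZ : Ctr x.toCg Z) (hM : MfAll x.Q) (hF : FSL x.Q)
    (hA : ND.PCh x.Q x.T x.A) {E : Submodule ℂ (Completion D)} {P : Theory E} {G' e L}
    (h : FINp x P G' e L) (af : AfW x.N P (↑)) (cy : ∀ v, Cyc P v) :
    Afd (fun _ => True) x.Γ x.N P := fun O B B' f hB ad hf Y hY v w => by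
  have g2 := EG.SGx.g2 x.toCg
  have gs := EG.SGx.gs x.toCg
  have hf' : In (tsupport f) f := ⟨hf.1, hf.2.1, subset_rfl⟩
  obtain ⟨n, hn⟩ := (Zc.np0.sub hf.2.1.isCompact.isBounded).exists
  have p := Zc.np0.symm
  generalize (n : ℝ) • (va - vb) = y at hn
  have om : (P.vac : Completion D) = x.Om := h.ext.vac
  have l : Lf P G' x.Γ (x.N (Wdg va vb y)) vb va y :=
    ⟨h.ext.toGr, h.ext.G, Subtype.ext (by rw [h.ext.G, om, EG.SGx.gv]), g2, gs, x.hN.gam _,
      (cs_dense x.Q).mono (by rintro _ ⟨u, rfl⟩; exact h.ext.mem _ u.2), cy, p.l, p.r, p.m,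
      fun B B' g a b d => af _ _ y B B' g p.r p.l p.symm.m a b d⟩
  obtain ⟨C, hC, ac⟩ := P.adj B hB
  have e1 : ∀ w, B' (bar f) w = C (bar f) w := fun w =>
    ext_inner_left ℂ fun u => (ad f u w hf.1).symm.trans (ac f u w hf.1)
  rw [e1]
  refine l.lift hB hC ac ⟨hf.1, hf.2.1, hn⟩ (T := vn (St x.N (tsupport f) (fun _ => True) x.Γ))
    (fun W m => Rn.Cv.vn_sub st_star W ⟨_, _, y, _, p, hn, subset_rfl, trivial, m⟩)
    (fun W m => ?_) (vn_mono st_star st_star (fun _ ⟨a, b, y, K, h1, h2, k⟩ =>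
      ⟨a, b, y, K, h1, hf.2.2.trans h2, k⟩) Y hY) v w
  obtain ⟨r, A, a1, a2⟩ := h.gen B hB
  have key : ∀ i, ∃ ξ : E, (∀ u, inner ℂ (A i f u) P.vac = inner ℂ u ξ) ∧
      inner ℂ (ξ : Completion D) (W P.vac) = inner ℂ (P.vac : Completion D) (W (A i f P.vac)) := by
    intro i
    rcases a1 i with k | ⟨C, c, k⟩
    · refine ⟨L (bar f) P.vac, fun u => by rw [k]; exact h.sca.2.1 f u _ hf.1, ?_⟩
      have ev := fun g hg => kz_fix (e := 1) (G.Sq.l_even (c := x.toCg) (f := g) x.hT x.hl hg)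
      have := EG.LiftAux.dns2 {Y | Sl.Opp x.N (tsupport f) Y} .one (fun _ a _ b => opp_mul a b)
        (fun _ => opp_star) (kz (-1) x.Γ * W * kz 1 x.Γ) (fun u hu => by
          have k1 (z : Completion D →L[ℂ] Completion D) : kz 1 x.Γ * (kz (-1) x.Γ * z) = z := by
            rw [← mul_assoc, kz1 g2, one_mul]
          have k2 (z : Completion D →L[ℂ] Completion D) : kz (-1) x.Γ * (kz 1 x.Γ * z) = z := by
            rw [← mul_assoc, kz2 g2, one_mul]
          have := congrArg (fun z => kz (-1) x.Γ * z * kz 1 x.Γ)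
            (mem_vn.1 m (kz 1 x.Γ * u * kz (-1) x.Γ) ((mem_cmt st_star).2 ?_))
          · simpa only [mul_assoc, k2, kz2 g2, mul_one] using this
          rintro y ⟨a, b, z, K, h1, h2, h3, -, h4⟩
          have := congrArg (fun z => kz 1 x.Γ * z * kz (-1) x.Γ) (hu _ (.mul a b z _ 1 h1.l h1.r
            (h1.m ▸ one_pos) h2 (x.hN.mono _ _ h3 _ ((mem_kl g2 gs).1 h4)) .one))
          simpa only [mul_assoc, k1, kz1 g2, mul_one] using this)
        x.Om (x.l f) (x.l (bar f)) x.Om fun Y hY =>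
          (opp_loc hZ hM hF x.hT hA x.hl hf' hY).symm.trans (star_inner _ _ _)
      simp only [ContinuousLinearMap.mul_apply, ev f hf.1, kz_fix (EG.SGx.gv x.toCg),
        ← kz_star gs, star_star, ← star_inner (star (kz 1 x.Γ)), ev _ hf.bar.1] at this
      rwa [k, h.pot _ hf.1, h.pot _ hf.bar.1, om]
    · obtain ⟨C', c', d⟩ := x.Q.adj C c
      refine ⟨e C' (bar f) P.vac, fun u => k f u hf.1 ▸ h.ext.adj C C' c c' d f u _ hf.1, ?_⟩
      rw [k _ _ hf.1, h.ext.agree C f _ _ c hf.1 cyc_vac om,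
        h.ext.agree C' _ _ _ c' hf.bar.1 cyc_vac om, om]
      refine (afs_of_aff (fun v w => d f v w hf.1) (x.hN.fld _ C f c hf')).2 W
        (Rn.Cv.vn_le st_star ?_ W m) _ _
      rintro y ⟨a, b, z, K, h1, h2, h3, -, h4⟩
      have n := Rn.Cv.cg g2 (x.hN.gam (Wdg a b z))
      have := n _ ((klkl g2 gs).1 (kl_mono g2 gs (fun X hX => (kl_iff g2 gs n).2
        (Rn.Cv.tw x.toCg z h1.l h1.r (h1.m ▸ one_pos) X (x.hN.mono _ _ h3 X hX))) h4))
      rw [← mul_assoc, ← mul_assoc, g2, one_mul, mul_assoc, g2, mul_one] at this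
      exact comm_anti (x.hN.mono _ _ h2) _ this
  choose ξ k1 k2 using key
  rw [show C (bar f) P.vac = ∑ i, ξ i from ext_inner_left ℂ fun u => by
    rw [← ac f u _ hf.1, a2, sum_inner, _root_.inner_sum]
    exact Finset.sum_congr rfl fun i _ => k1 i u, a2]
  simp only [Submodule.coe_sum, map_sum, sum_inner, _root_.inner_sum, k2]

/-- the conclusion -/
def CNF (p : Set V → Prop) (c : Cg D) (T : Ix → Ix → Fld D) : Prop :=
  ∃ (D' : Submodule ℂ (Completion D)) (Q' : Theory D') (G' : D' → D') (e : Fld D → Fld D')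
    (L : Fld D'), ExtC c.Q c.Γ Q' G' e ∧ (AfW c.N Q' (↑) ∧ Afd p c.Γ c.N Q') ∧
    Q'.IsStress (fun m n => e (T m n)) ∧ Q'.IsScalar L 2 ∧
    (∀ f v, IsTest f → tr (fun m n => e (T m n)) f v = (3 : ℂ) • L (box f) v) ∧
    ∀ Q'' : Theory D', IsEnl Q' Q'' → IsImpr Q'' (fun m n => e (T m n))
      (improve (fun m n => e (T m n)) L) ∧ ConfAct Q'' (improve (fun m n => e (T m n)) L) ∧
      (Gr Q'' G' → CFS Q'' G' (improve (fun m n => e (T m n)) L) ∧
      ∀ B, Q'.fld B → ∃ (n : ℕ) (p : Fin n → Bool) (C : Fin n → Fld D'),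
        (∀ i, DescS Q'' G' (improve (fun m n => e (T m n)) L) (p i) (C i)) ∧
        ∀ f v, IsTest f → B f v = ∑ i, C i f v)

theorem fin' {g : G.Ctx D} (e : EG.E0 g.toCg) (h : G.GX g) (hM : MfAll g.Q) (hF : FSL g.Q) :
    ∃ D' Q' G' e L, FINp (As.toX g h.toGRP) (D' := D') Q' G' e L ∧ AfW g.N Q' (↑) ∧
      ∀ v, Cyc Q' v := by
  have t := As.e0 e h
  have h0 : COV0 g.toCg := cov0_row hM hF
  have p := As.pf h.toGRP (pft g h.toGRP (eet_of h.ee) (As.cov h0))
  have hc : X.COV (As.toX g h.toGRP).toCg := cov_row h0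
  have t2 : E2 (As.toX g h.toGRP) :=
    ⟨t, hc, wrd_row t hc p NA.rig_row, loc_row t hc p NA.rig_row⟩
  exact fin_p t hc h0 (ops_row t2 _) (π := fun E P => AfW g.N P (↑) ∧ ∀ v, Cyc P v)
    fun e w F _ a b => ⟨afw_row t2 e w F a b, cyc_row w F a b⟩

theorem conf0 {c : Cg D} {Z} (z : Ctr c Z) (hI : IVac c.Q) (hM : MfAll c.Q) (hF : FSL c.Q)
    {T : Ix → Ix → Fld D} (hT : c.Q.IsStress T) (hP : ND.PCh c.Q T c.A) :
    CNF (fun _ => True) c T := by
  obtain ⟨g, rfl, rfl, x⟩ := gxi ft z (pack z hM hF) T hT hP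
  obtain ⟨D', Q', G', e, L, h1, h2, h3⟩ := fin' (EG.e0_thm _) x hM hF
  exact ⟨D', Q', G', e, L, h1.ext, ⟨h2, afd_of (x := As.toX g x.toGRP) z hM hF hP h1 h2 h3⟩,
    h1.str, h1.sca, h1.tr, confi_p (c := As.toX g x.toGRP) hI hM hF h1⟩

/-- **conformal invariance in an extension that is affiliated to the dual net** -/
theorem conf (c : Cg D) (hI : IVac c.Q) (hM : MfAll c.Q) (hF : FSL c.Q) {T : Ix → Ix → Fld D}
    (hT : c.Q.IsStress T) (hP : ND.PCh c.Q T c.A) : CNF IsBounded c T := by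
  obtain ⟨D', Q', G', e, L, h1, ⟨h2, h3⟩, h4⟩ := conf0 (ctr' c hI) hI hM hF hT hP
  refine ⟨D', Q', G', e, L, h1, ⟨fun a a' y B B' f p q r k d i Y hY =>
    h2 a a' y B B' f p q r k d i Y (comm_anti (Zc.sn_le ⟨p, q, r⟩) Y hY),
    fun O B B' f a b d Y hY => h3 O B B' f a b d Y (vn_mono st_star st_star ?_ Y hY)⟩, h4⟩
  rintro _ ⟨a, b, y, K, h1, h2, h3, h4, h5⟩
  exact ⟨a, b, y, K, h1, h2, h3, trivial, kl_mono (EG.SGx.g2 c) (EG.SGx.gs c)
    (fun X m => sub_gv (Zc.sn_star _) X (.inl ⟨K, subset_rfl, h4, m⟩)) h5⟩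

end

end Vale.Agent.N352.K
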