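import Vale.Agent.N352.K.Key
import Vale.Agent.N352.Z.Cl

/-!
# N352, block K: the fields of the extension
-/

set_option linter.all false

open Filter Topology Set
open Bornology (IsBounded)

namespace Vale.Agent.N352.K

open Vale.Agent.P352 Vale.Agent.P352.GF Vale.Agent.P352.BW Vale.Agent.P352.H246
open Vale.Agent.P352.H496 Vale.Agent.P352.H755 Vale.Agent.P352.H15
open Vale.Agent.P352X Vale.Agent.P352X.EB P352R.Tw P352W.Net U G G.X
open Vale.Agent.P352X.EG (Cg)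
open UniformSpace (Completion)

noncomputable section

universe u

variable {D : Type u} [NormedAddCommGroup D] [InnerProductSpace ℂ D]

/-- the extension is generated by the scalar `L` and the fields of `Q` -/
def Gn {E : Type*} [NormedAddCommGroup E] [InnerProductSpace ℂ E] (Q : Theory D) (P : Theory E)
    (e : Fld D → Fld E) (L : Fld E) : Prop :=
  (∀ v, Dn.Cyc P v) ∧ ∀ A, P.fld A → ∃ (n : ℕ) (B : Fin n → Fld E), (∀ i, B i = L ∨ ∃ C,
    Q.fld C ∧ ∀ f v, IsTest f → B i f v = e C f v) ∧ ∀ f v, A f v = ∑ i, B i f v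

/-- the conclusion -/
def CNF2 (p : Set V → Prop) (c : Cg D) (T : Ix → Ix → Fld D) : Prop :=
  ∃ (D' : Submodule ℂ (Completion D)) (Q' : Theory D') (G' : D' → D') (e : Fld D → Fld D')
    (L : Fld D'), ExtC c.Q c.Γ Q' G' e ∧ (AfW c.N Q' (↑) ∧ Afd p c.Γ c.N Q') ∧
    (Gn c.Q Q' e L ∧ MfAll Q' ∧ FSL Q') ∧
    Q'.IsStress (fun m n => e (T m n)) ∧ Q'.IsScalar L 2 ∧
    (∀ f v, IsTest f → tr (fun m n => e (T m n)) f v = (3 : ℂ) • L (box f) v) ∧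
    ∀ Q'' : Theory D', IsEnl Q' Q'' → IsImpr Q'' (fun m n => e (T m n))
      (improve (fun m n => e (T m n)) L) ∧ ConfAct Q'' (improve (fun m n => e (T m n)) L) ∧
      (Gr Q'' G' → CFS Q'' G' (improve (fun m n => e (T m n)) L) ∧
      ∀ B, Q'.fld B → ∃ (n : ℕ) (p : Fin n → Bool) (C : Fin n → Fld D'),
        (∀ i, DescS Q'' G' (improve (fun m n => e (T m n)) L) (p i) (C i)) ∧
        ∀ f v, IsTest f → B f v = ∑ i, C i f v)

theorem fin2 {g : G.Ctx D} (e : EG.E0 g.toCg) (h : G.GX g) (hM : MfAll g.Q) (hF : FSL g.Q) :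
    ∃ D' Q' G' e L, FINp (As.toX g h.toGRP) (D' := D') Q' G' e L ∧ AfW g.N Q' (↑) ∧
      (∀ v, Cyc Q' v) ∧ Cl Q' := by
  have t := As.e0 e h
  have h0 : COV0 g.toCg := cov0_row hM hF
  have p := As.pf h.toGRP (pft g h.toGRP (eet_of h.ee) (As.cov h0))
  have hc : X.COV (As.toX g h.toGRP).toCg := cov_row h0
  have t2 : E2 (As.toX g h.toGRP) :=
    ⟨t, hc, wrd_row t hc p NA.rig_row, loc_row t hc p NA.rig_row⟩
  exact fin_p t hc h0 (ops_row t2 _) (π := fun E P => AfW g.N P (↑) ∧ (∀ v, Cyc P v) ∧ Cl P)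
    fun e w F _ a b => ⟨afw_row t2 e w F a b, cyc_row w F a b, cl_row b⟩

theorem conf1 {c : Cg D} {Z} (z : Ctr c Z) (hI : IVac c.Q) (hM : MfAll c.Q) (hF : FSL c.Q)
    {T : Ix → Ix → Fld D} (hT : c.Q.IsStress T) (hP : ND.PCh c.Q T c.A) :
    CNF2 (fun _ => True) c T := by
  obtain ⟨g, rfl, rfl, x⟩ := gxi ft z (pack z hM hF) T hT hP
  obtain ⟨D', Q', G', e, L, h1, h2, h3, h4⟩ := fin2 (EG.e0_thm _) x hM hF
  exact ⟨D', Q', G', e, L, h1.ext, ⟨h2, afd_of (x := As.toX g x.toGRP) z hM hF hP h1 h2 h3⟩,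
    ⟨⟨h3, h1.gen⟩, h1.mfa hM hF, h1.fsl hM hF h4⟩, h1.str, h1.sca, h1.tr, confi_p (c := As.toX g x.toGRP) hI hM hF h1⟩

theorem conf2 (c : Cg D) (hI : IVac c.Q) (hM : MfAll c.Q) (hF : FSL c.Q) {T : Ix → Ix → Fld D}
    (hT : c.Q.IsStress T) (hP : ND.PCh c.Q T c.A) : CNF2 IsBounded c T := by
  obtain ⟨D', Q', G', e, L, h1, ⟨h2, h3⟩, h4⟩ := conf1 (ctr' c hI) hI hM hF hT hP
  refine ⟨D', Q', G', e, L, h1, ⟨fun a a' y B B' f p q r k d i Y hY =>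
    h2 a a' y B B' f p q r k d i Y (comm_anti (Zc.sn_le ⟨p, q, r⟩) Y hY),
    fun O B B' f a b d Y hY => h3 O B B' f a b d Y (vn_mono st_star st_star ?_ Y hY)⟩, h4⟩
  rintro _ ⟨a, b, y, K, h1, h2, h3, h4, h5⟩
  exact ⟨a, b, y, K, h1, h2, h3, trivial, kl_mono (EG.SGx.g2 c) (EG.SGx.gs c)
    (fun X m => sub_gv (Zc.sn_star _) X (.inl ⟨K, subset_rfl, h4, m⟩)) h5⟩

open Vale.Agent.P352L Vale.Agent.P352R Pf U.Mn F in
/-- **the local extension** -/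
theorem exten2 (c : Cg D) {T : Ix → Ix → Fld D} (hM : MfAll c.Q) (hF : FSL c.Q) (hI : U.IVac c.Q)
    (a1 : c.Q.IsStress T) (a2 : ND.PCh c.Q T c.A) :
    ∃ (E : Submodule ℂ (Completion D)) (P : Theory E) (G' : E → E) (e : Fld D → Fld E)
      (L : Fld E), (N352.Ext c.Q c.Γ c.N P G' e ∧ Afd IsBounded c.Γ c.N P) ∧
      (Gn c.Q P e L ∧ MfAll P ∧ FSL P) ∧
      P.IsStress (fun m n => e (T m n)) ∧ P.IsScalar L 2 ∧
      N352.Desc P G' (improve (fun m n => e (T m n)) L) ∧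
      ∀ R, P352R.P.IsEnl P R → P352R.P.Gr R G' →
        N352.T.Cm R G' (fun m n => e (T m n)) (improve (fun m n => e (T m n)) L) := by
  obtain ⟨E, P, G', e, L, h1, h0, g0, h2, h3, h4, h5⟩ := conf2 c hI hM hF a1 a2
  refine ⟨E, P, G', e, L, ⟨ext_of h1 h0.1, h0.2⟩, g0, h2, h3, fun B hB => ?_, fun R n g => ?_⟩
  · obtain ⟨n, p, C, u, w⟩ := ((h5 P ⟨rfl, rfl, fun _ h => h, fun _ h => h⟩).2.2 h1.toGr).2 B hB
    exact ⟨n, p, C, fun i => Br.desc (u i), w⟩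
  have n := Br.enl.1 n
  refine N352.T.corm (Br.gr.1 g) (H746.isStress_enl n h2) (scalar_enl n h3) (h5 R n).1.traceless
    (mx_of c ((U.rows D).mixi c) hI (h5 R n).1 (.id ℂ _) E.subtypeₗᵢ (fun _ _ => rfl) ?_
      (fun s M a z v hs hM => ?_) fun F _ => ⟨_, rfl⟩)
  · rw [n.vac]
    exact h1.vac.symm
  · rw [n.U]
    show inner ℂ _ (P.U s M a v : Completion D) = _
    rw [h1.U _ _ _ _ hs hM]
    exact ue_inner hs hM _ _ _

end

end Vale.Agent.N352.K
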