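import Vale.Agent.N352.T.Key
import Vale.Agent.N352.K.Cf

/-!
# N352, block K: conformal invariance from the scalars affiliated to the dual net
-/

set_option linter.all false

open Filter Topology
open Bornology (IsBounded)

namespace Vale.Agent.N352.K

open Vale.Agent.P352 Vale.Agent.P352.GF Vale.Agent.P352.BW Vale.Agent.P352.H246
open Vale.Agent.P352.H496 Vale.Agent.P352.H755 Vale.Agent.P352.H15
open Vale.Agent.P352X Vale.Agent.P352L Vale.Agent.P352R
open Vale.Agent.N352.Pf Vale.Agent.N352.U Vale.Agent.N352.U.Mn Vale.Agent.N352.F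
open Vale.Agent.N352.T (Cm corm)
open Vale.Agent.P352X.EG (Cg)
open UniformSpace (Completion)

noncomputable section

universe u v

variable {D : Type u} [NormedAddCommGroup D] [InnerProductSpace ℂ D]
  {D' : Type v} [NormedAddCommGroup D'] [InnerProductSpace ℂ D']

/-- `R` contains the scalars affiliated to the dual net -/
def Mad (Q : Theory D) (Γ : Completion D →L[ℂ] Completion D)
    (N : Set V → VonNeumannAlgebra (Completion D)) (R : Theory D') (i : D →ₗᵢ[ℂ] D') : Prop :=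
  ∀ (E : Submodule ℂ (Completion D)) (P : Theory E) G' e L, Ext Q Γ N P G' e →
    Afd IsBounded Γ N P → P.IsScalar L 2 → ∃ B, R.bose B ∧ ∀ f, IsTest f →
      ((B f R.vac : D') : Completion D') = Completion.map i (L f P.vac : Completion D)

variable (c : Cg D) {T : Ix → Ix → Fld D} (hM : MfAll c.Q) (hF : FSL c.Q) (hI : U.IVac c.Q)
include hM hF hI

/-- **the local extension** -/
theorem exten (a1 : c.Q.IsStress T) (a2 : ND.PCh c.Q T c.A) :
    ∃ (E : Submodule ℂ (Completion D)) (P : Theory E) (G' : E → E) (e : Fld D → Fld E)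
      (t : Ix → Ix → Fld E), (Ext c.Q c.Γ c.N P G' e ∧ Afd IsBounded c.Γ c.N P) ∧ Desc P G' t ∧
      ∀ R, P352R.P.IsEnl P R → P352R.P.Gr R G' → Cm R G' (fun m n => e (T m n)) t := by
  obtain ⟨E, P, G', e, L, h1, h0, h2, h3, h4, h5⟩ := K.conf c hI hM hF a1 a2
  refine ⟨E, P, G', e, improve (fun m n => e (T m n)) L, ⟨ext_of h1 h0.1, h0.2⟩, fun B hB => ?_,
    fun R n g => ?_⟩
  · obtain ⟨n, p, C, u, w⟩ := ((h5 P ⟨rfl, rfl, fun _ h => h, fun _ h => h⟩).2.2 h1.toGr).2 B hB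
    exact ⟨n, p, C, fun i => Br.desc (u i), w⟩
  have n := Br.enl.1 n
  refine corm (Br.gr.1 g) (H746.isStress_enl n h2) (scalar_enl n h3) (h5 R n).1.traceless
    (mx_of c ((U.rows D).mixi c) hI (h5 R n).1 (.id ℂ _) E.subtypeₗᵢ (fun _ _ => rfl) ?_
      (fun s M a z v hs hM => ?_) fun F _ => ⟨_, rfl⟩)
  · rw [n.vac]
    exact h1.vac.symm
  · rw [n.U]
    show inner ℂ _ (P.U s M a v : Completion D) = _
    rw [h1.U _ _ _ _ hs hM]
    exact ue_inner hs hM _ _ _

variable (hT : Stress0 c.Q T) (hA : ND.PCh c.Q T c.A) {R : Theory D'} {i : D →ₗᵢ[ℂ] D'}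
  {G' : D' → D'} {T' : Ix → Ix → Fld D'} (h : P.Sect c.Q R i) (g : P.Gr R G')
  (hT' : P.Stress0 R T') (hP : Dn.PGen R T') (hx : ∀ m n, P.Xt i (T m n) (T' m n))
include hT hA h g hT' hP hx

open EG Fss.G in
/-- **a theory that contains the scalars affiliated to the dual net is conformally invariant** -/
theorem key (hX : Mad c.Q c.Γ c.N R i) : ∃ t, Cm R G' T' t := by
  obtain ⟨S, S', h1, h4, d1, -, d2, c2⟩ := four (U.rows D) c hM hF hI hT hA h g hT' hP hx
  obtain ⟨E, P, G1, e, L, a1, ⟨a2, a3⟩, -, a4, a5, -⟩ := K.conf c hI hM hF h1 h4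
  have hl := pot_ext (ext_of a1 a2) h1 a4 a5
  obtain ⟨B, b1, b2⟩ := hX E P G1 e L (ext_of a1 a2) a3 a4
  obtain ⟨b3, b4⟩ := scal_sect h d1 c2 hl.trace (fun s M a f hs hM hf => by
    have k : ((s ^ 2 : ℝ) : ℂ) ≠ 0 := Complex.ofReal_ne_zero.2 (by positivity)
    rw [show P352R.P.Ue c.Q s M a _ = _ from (Ug_apply _ hs hM _ _).symm, G.Sq.pot hl a hs hM hf,
      ← Complex.coe_smul, smul_smul, Complex.ofReal_inv, mul_inv_cancel₀ k, one_smul]) b1 b2
  suffices k : Cm R G' S' (improve S' B) from ⟨_, k.same d2⟩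
  refine corm (Br.gr.1 g) d1 b3 b4 (mx_of c ((U.rows D).mixi c) hI
    (isImpr d1 ⟨rfl, rfl, fun _ h => h, fun _ h => h⟩ b3 b4) (jc i) Completion.toComplₗᵢ jc_inner
    (jc_om h) (fun s M a z v hs hM => ?_) fun F hF' => ?_)
  · exact (congrArg₂ _ (jc_ue h hs hM a z) (ue_coe hs hM a v).symm).trans (ue_inner hs hM _ _ _)
  let Z := LinearMap.range (jc i).toLinearMap
  have z1 : ∀ f, IsTest f → ((B f R.vac : D') : Completion D') ∈ Z := fun f hf =>
    ⟨_, (b2 f hf).symm⟩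
  have z2 : ∀ m n f, IsTest f → ((S' m n f R.vac : D') : Completion D') ∈ Z :=
    fun m n f hf => ⟨_, (jc_coe _).trans <| by rw [c2 m n f _ hf, h.vac]⟩
  show ((smt (improve S' B) F R.vac : D') : Completion D') ∈ Z
  rw [← Completion.coe_toComplL (𝕜 := ℂ)]
  simp only [smt, improve, map_sum, map_add, map_sub, map_smul, Completion.coe_toComplL]
  refine Z.sum_mem fun m _ => Z.sum_mem fun n _ => ?_
  have hf := (hF' m n).isTest
  exact Z.sub_mem (Z.add_mem (z2 m n _ hf) (Z.smul_mem _ (z1 _ (Ap.test_pd _ (Ap.test_pd _ hf)))))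
    (Z.smul_mem _ (Z.sum_mem fun k _ => Z.smul_mem _ (z1 _ (Ap.test_pd _ (Ap.test_pd _ hf)))))

end

end Vale.Agent.N352.K
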