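import Vale.Agent.N352.K.Rw
import Vale.Agent.N352.F.Wt
import Vale.Agent.N352.NDu

/-!
# N352, block K: the extension has a net
-/

set_option linter.all false

open Filter Topology
open Bornology (IsBounded)

namespace Vale.Agent.N352.K

open Vale.Agent.P352 Vale.Agent.P352.GF Vale.Agent.P352.BW Vale.Agent.P352.H496
open Vale.Agent.P352.H755 Vale.Agent.P352X Vale.Agent.P352X.EB E P352R P352R.Tw Rn P352W.Net F U
open UniformSpace (Completion)

noncomputable section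

universe u

/-- open sets in the causal complement of a wedge are in the opposite wedge -/
theorem opp_of {a b y : V} (h : Zc.Np a b) {O : Set V} (o : IsOpen O) (s : O ⊆ cc (Wdg a b y)) :
    O ⊆ Wdg b a y := fun x hx => by
  have k : ∀ u : V, ∃ ε : ℝ, 0 < ε ∧ x + ε • u ∈ O := fun u => by
    have : ∀ᶠ t in 𝓝 (0 : ℝ), x + t • u ∈ O := (Continuous.tendsto' (f := fun t : ℝ => x + t • u)
      (by fun_prop) 0 x (by simp)).eventually (o.mem_nhds hx)
    exact ((this.filter_mono nhdsWithin_le_nhds).and (self_mem_nhdsWithin (s := Set.Ioi 0))).exists.imp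
      fun _ k => ⟨k.2, k.1⟩
  have m := h.m
  have m' := h.symm.m
  have z : ∀ {u x : V} {t : ℝ}, IsNull u → x ∈ O → x + t • u ∉ Wdg a b y := fun hu hx w => by
    have := s hx _ w
    rw [add_sub_cancel_left, md_smul, md_smul_l, hu.1, mul_zero, mul_zero] at this
    exact this.false
  refine ⟨not_le.1 fun e => ?_, not_le.1 fun e => ?_⟩
  · obtain ⟨ε, p, q⟩ := k a
    refine z (t := -(GF.mdot a (x - y) + 1)) h.r q ⟨?_, ?_⟩ <;>
      simp only [md_sub, md_add, md_smul, h.l.1, h.r.1, m, m'] at e ⊢ <;> linarith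
  · obtain ⟨ε, p, q⟩ := k (-b)
    refine z (t := 1 - GF.mdot b (x - y)) h.l q ⟨?_, ?_⟩ <;>
      simp only [smul_neg, ← sub_eq_add_neg, md_sub, md_add, md_smul, h.l.1, h.r.1, m, m'] at e ⊢ <;>
      linarith

variable {D : Type u} [NormedAddCommGroup D] [InnerProductSpace ℂ D] {Q : Theory D} {G : D → D}
  {A : (V → V) → D → D} {Γ : Completion D →L[ℂ] Completion D}
  {N : Set V → VonNeumannAlgebra (Completion D)}

variable (Γ N) in
/-- twisted duality for wedges -/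
def Dw : Prop := ∀ a b y, Zc.Np a b → ∀ Z,
  (∀ K, K ⊆ Wdg b a y → IsBounded K → Z ∈ (Kl Γ (N K)).commutant) → Z ∈ N (Wdg a b y)

/-- **relatively local nets give local nets** with duality for wedges -/
theorem net_of3 (g : GI.Ge Q G A) (m : P.MfA Q) (y : GI.Cy Q) (h : Dn.Net Q G Γ N)
    (r : Dn.Rel Q Γ N) : ∃ N', P352R.G.LNg Q G A Γ N' ∧ Le N N' ∧ Dw Γ N' := by
  have g2 : Γ * Γ = 1 := SGx.g2 (cr g h)
  have gs : star Γ = Γ := SGx.gs (cr g h)
  have le : Le N fun O => cmt (Sx N (kt (cr g h)) (cc O)) := fun O o X hX => (mem_cmt Sx.st).2 (by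
    rintro _ ⟨O', o', s, X', hX', rfl⟩
    have k := kz_conj g2 (e := -1) (by norm_num) X'
    rw [neg_neg, ← kz_star' gs] at k
    have l := h.loc O' O o' o (fun x p y q => by
      have := s (subset_closure p) y q
      simp only [GF.mdot, Pi.sub_apply] at this ⊢
      exact (Finset.sum_congr rfl fun m _ => by ring).trans_lt this) X' hX'
    refine (VonNeumannAlgebra.mem_commutant_iff.1 (?_ : _ ∈ (N O).commutant) X hX).symm
    exact k ▸ add_mem ((N O).commutant.toStarSubalgebra.smul_mem l.1 _)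
      ((N O).commutant.toStarSubalgebra.smul_mem l.2 _))
  refine ⟨_, Br.lng.2 (lng (rn g y h r) (Br.mfa.1 m)), le, fun a b y p Z z => (mem_cmt Sx.st).2 ?_⟩
  rintro _ ⟨O, o, s, X, hX, rfl⟩
  have := (mem_kl g2 gs).1 ((klkl g2 gs).2 (le O o _ (h.gam O o X hX)))
  rw [← kz_star' gs] at this
  exact VonNeumannAlgebra.mem_commutant_iff.1
    (z O (opp_of p o.1 (subset_closure.trans s)) o.2) _ this

open H246 H15 in
/-- the dual net -/
def cd (c : EG.Cg D) : EG.Cg D := ⟨c.Q, c.G, c.A, c.Γ, Nt.Nd c.N, c.hN.toGr, c.hN.vac, c.hN.add,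
  c.hN.der, c.hN.ext, fun O B f hB hf => (c.hN.fld O B f hB hf).imp fun X' k =>
    ⟨k.1, fun Y hY => k.2 Y (comm_anti (Nt.le_Nd c.hN.mono) Y hY)⟩, fun O O' e => Nt.Nd_mono e,
  fun s L y O X hX hs hL => by
    let g : EG.Sh c := ⟨⟨s, L, y, hs, hL⟩, false⟩
    refine ⟨g.U c * X * star (g.U c), Nt.mem_Nd.2 fun a b v ha hb hab hO => ?_, fun z => ?_⟩
    · have e : sim s L y (s⁻¹ • sim 1 (linv L) 0 (v - y)) = v := by
        rw [Grp.sim_eq, simL_smul, sim_linv hL, smul_smul, mul_inv_cancel₀ hs.ne', one_smul,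
          add_sub_cancel]
      have k := Nt.sim_wdg hs hL y (sim 1 (linv L) 0 a) (sim 1 (linv L) 0 b)
        (s⁻¹ • sim 1 (linv L) 0 (v - y))
      rw [e, sim_linv hL, sim_linv hL] at k
      refine c.hN.mono _ _ ?_ _ (((EG.e0_thm c).sg.alg g _ X).1 (Nt.mem_Nd.1 hX _ _ _
        (isNull_lor (isLor_linv hL) ha) (isNull_lor (isLor_linv hL) hb)
        (by rwa [md_LL (isLor_linv hL)]) fun x hx => (k x).1 (hO ⟨x, hx, rfl⟩)))
      rintro _ ⟨x, hx, rfl⟩
      exact (k x).2 hx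
    · rw [← Ug_apply c.Q hs hL, ← Ug_apply c.Q hs hL]
      exact congrArg (fun T : Completion D →L[ℂ] Completion D => g.U c (X (T z)))
        ((EG.e0_thm c).sg.uni g).1,
  fun O X hX => Nt.mem_Nd.2 fun a b y p q r s => c.hN.gam _ X (Nt.mem_Nd.1 hX a b y p q r s),
  fun a b X ha hb hab hX => by
    rw [Nt.Nd_wdg c.hN.mono hb ha (by rw [md_comm, hab]; exact one_pos)] at hX
    rw [Nt.Nd_wdg c.hN.mono ha hb (by rw [hab]; exact one_pos)]
    exact c.hN.loc a b X ha hb hab hX⟩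

theorem nd_st (c : EG.Cg D) (d : Dw c.Γ c.N) (O : Set V) :
    ∀ Y ∈ (Nt.Nd c.N O).commutant, Y ∈ vn (St c.N O IsBounded c.Γ) :=
  comm_anti fun Z z => Nt.mem_Nd.2 fun a b y p q r s => by
    have k := inv_pos.2 r
    rw [← JCb.wdg_r a b y k] at s ⊢
    have n : Zc.Np a ((GF.mdot a b)⁻¹ • b) :=
      ⟨p, Geo.null_smul q k, by rw [md_smul, inv_mul_cancel₀ r.ne']⟩
    exact d _ _ y n Z fun K e b => VonNeumannAlgebra.mem_commutant_iff.2 fun X x =>
      (mem_cmt st_star).1 z X ⟨_, _, y, K, n, s, e, b, x⟩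

/-- the net of the diamonds -/
theorem dia (c : EG.Cg D) : ∃ N', Dn.Net c.Q c.G c.Γ N' ∧ ∀ O, IsOpen O → ∀ Y ∈ (N' O).commutant,
    ∀ z ∈ O, ∃ U, IsOpen U ∧ z ∈ U ∧ Y ∈ (c.N U).commutant :=
  ⟨fun O => vn (Cv.S c O), ⟨c.hN.ext,
    fun _ _ _ _ e => vn_mono (Cv.s_star c _) (Cv.s_star c _)
      fun _ ⟨p, a, q, b, m⟩ => ⟨p, e a, q, e b, m⟩,
    fun s L y O _ X m hs hL => (Cv.cov c ⟨⟨s, L, y, hs, hL⟩, false⟩ O X m).imp fun Y k =>
      ⟨k.1, fun z => by
        have e := P352X.Ug_apply c.Q hs hL y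
        exact ((congrArg Y (e z)).symm.trans (DFunLike.congr_fun k.2 z)).trans (e _)⟩,
    fun O _ => Cv.s_gam c O, fun _ _ _ _ s => Cv.loc c s⟩, fun O r Y y z k => by
      obtain ⟨p, a, q, b, l, U, u1, u2, u3⟩ := dm_nhd r k
      exact ⟨U, u1, u2, VonNeumannAlgebra.mem_commutant_iff.2 fun X x =>
        VonNeumannAlgebra.mem_commutant_iff.1 y X
          (Cv.vn_sub (Cv.s_star c _) X ⟨p, a, q, b, l, c.hN.mono _ _ u3 X x⟩)⟩⟩

variable {E : Type*} [NormedAddCommGroup E] [InnerProductSpace ℂ E] {R : Theory E}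
  {k : E → Completion D} {G' : E → E}

/-- weak commutation is a local property -/
theorem wq_loc (l : ∀ v w, k (v + w) = k v + k w) {O Y}
    (h : ∀ z ∈ O, ∃ U, IsOpen U ∧ z ∈ U ∧ Wq R k U Y) : Wq R k O Y := fun B B' f v w hB ad hf => by
  obtain ⟨C, hC, ac⟩ := R.adj B hB
  have e : ∀ g, IsTest g → B' (bar g) w = C (bar g) w := fun g t =>
    ext_inner_left ℂ fun u => (ad g u w t).symm.trans (ac g u w t)
  have a : ∀ {C}, R.fld C → ∀ f f' v, GF.IsTest f → GF.IsTest f' →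
      C (fun x => f x + f' x) v = C f v + C f' v := fun hC f f' v p q => by
    simpa only [one_mul, one_smul] using R.lin _ f f' 1 v hC p q
  have k0 : k 0 = 0 := by simpa using l 0 0
  rw [e f hf.1]
  refine Ap.in_ind (O := O) (P := fun f => inner ℂ (k (C (bar f) w)) (Y (k v)) =
    inner ℂ (k w) (Y (k (B f v)))) ?_ (fun f g p q r s => ?_) (fun z hz => ?_) hf
  · rw [show (bar fun _ => 0) = fun _ => 0 from funext fun _ => star_zero _, Fss.lin0 hB,
      Fss.lin0 hC, k0, map_zero, inner_zero_left, inner_zero_right]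
  · rw [show (bar fun x => f x + g x) = fun x => bar f x + bar g x from
      funext fun _ => star_add _ _, a hB _ _ _ p.1 q.1, a hC _ _ _ p.bar.1 q.bar.1, l, l, map_add,
      inner_add_left, inner_add_right, r, s]
  · obtain ⟨U, u1, u2, u3⟩ := h z hz
    exact ⟨U, u1.mem_nhds u2, fun g hg =>
      u3 B C g v w hB ac ⟨hg.1, hg.2.1, hg.2.2.trans Set.inter_subset_left⟩⟩

/-- transport of a net to the completion of the domain of an extension -/
theorem pull (k : E →ₗᵢ[ℂ] Completion D) (d : DenseRange k) (g : ∀ v, k (G' v) = Γ (k v))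
    (u : ∀ s L a v, 0 < s → IsLor L → k (R.U s L a v) = Dn.Ue Q s L a (k v)) (n : Dn.Net Q G Γ N)
    (w : ∀ O, Dn.Reg O → ∀ Y ∈ (N O).commutant, Wq R k O Y) :
    ∃ Γ' N', Dn.Net R G' Γ' N' ∧ Dn.Aff R N' := by
  let j : Completion E ≃ₗᵢ[ℂ] Completion D := (LinearEquiv.refl ℂ E).extendOfIsometry
    (Completion.toComplₗᵢ (𝕜 := ℂ) (E := E)).toLinearMap k.toLinearMap Completion.denseRange_coe d
    fun x => (k.norm_map x).trans (Completion.norm_coe x).symm
  have jc : ∀ v : E, j v = k v := fun v => LinearEquiv.extendOfIsometry_eq _ _ _ _ _ _ v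
  have cj : ∀ X z, j.conjStarAlgEquiv X (j z) = j (X z) := fun X z => by
    rw [LinearIsometryEquiv.conjStarAlgEquiv_apply_apply, LinearIsometryEquiv.symm_apply_apply]
  obtain ⟨Γ', rfl⟩ := p_sur j.conjStarAlgEquiv Γ
  have ue : ∀ {s L}, 0 < s → IsLor L → ∀ a z, j (Dn.Ue R s L a z) = Dn.Ue Q s L a (j z) :=
    fun hs hL a z => Completion.induction_on z (isClosed_eq
      (j.continuous.comp Completion.continuous_map) (Completion.continuous_map.comp j.continuous))
      fun v => (congrArg j (ue_coe hs hL a v)).trans (by rw [jc, jc, u _ _ _ _ hs hL])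
  refine ⟨Γ', fun O => pv j.conjStarAlgEquiv (N O), ⟨fun v => j.injective (by rw [← cj, jc, jc, g]),
    fun O O' o o' e X hX => (mem_pv _ _).2 (n.mono O O' o o' e _ ((mem_pv _ _).1 hX)),
    fun s L y O o X hX hs hL => ?_, fun O o X hX => (mem_pv _ _).2 (by
      simpa only [p_mul] using n.gam O o _ ((mem_pv _ _).1 hX)), fun O O' o o' s X hX => by
      simpa only [mem_pv', p_mul, p_add, p_sub] using n.loc O O' o o' s _ ((mem_pv _ _).1 hX)⟩,
    fun O o Y hY B B' f v z hB ad hf _ _ => ?_⟩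
  · obtain ⟨Y, a, b⟩ := n.cov s L y O o _ ((mem_pv _ _).1 hX) hs hL
    obtain ⟨Y, rfl⟩ := p_sur j.conjStarAlgEquiv Y
    refine ⟨Y, (mem_pv _ _).2 a, fun z => j.injective ?_⟩
    rw [← cj, ue hs hL, b, cj, ue hs hL]
  · simpa only [← jc, cj, LinearIsometryEquiv.inner_map_map] using
      w O o _ ((mem_pv' _ _).1 hY) B B' f v z hB ad hf

/-- **the extension has a net** -/
theorem net_dia (c : EG.Cg D) (d : Dw c.Γ c.N) {E : Submodule ℂ (Completion D)} {P : Theory E}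
    (a : Afd IsBounded c.Γ c.N P) : ∃ N', Dn.Net c.Q c.G c.Γ N' ∧
      ∀ O, Dn.Reg O → ∀ Y ∈ (N' O).commutant, Wq P (↑) O Y :=
  (dia (cd c)).imp fun N' n => ⟨n.1, fun O o Y y =>
    wq_loc (fun _ _ => rfl) fun z hz => (n.2 O o.1 Y y z hz).imp fun U u => ⟨u.1, u.2.1,
      fun B B' f v w hB ad hf => a U B B' f hB ad hf Y (nd_st c d U Y u.2.2) v w⟩⟩

/-- transport of a net from the generated domain -/
theorem push {P : Theory (N352.cy Q)} (h : Rst Q P) {G0 M} (n : Dn.Net P G0 (pg Q Γ) M)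
    (x : ∀ v : D, Γ v = (G v : D)) {k : E → Completion (N352.cy Q)}
    (w : ∀ O, Dn.Reg O → ∀ Y ∈ (M O).commutant, Wq R k O Y) : ∃ N', Dn.Net Q G Γ N' ∧
      ∀ O, Dn.Reg O → ∀ Y ∈ (N' O).commutant, Wq R (fun v => je Q (k v)) O Y := by
  let φ := (je Q).conjStarAlgEquiv
  have g : φ.symm Γ = pg Q Γ := rfl
  refine ⟨fun O => pv φ.symm (M O), ⟨x,
    fun O O' o o' e X hX => (mem_pv _ _).2 (n.mono O O' o o' e _ ((mem_pv _ _).1 hX)),
    fun s L y O o X hX hs hL => ?_, fun O o X hX => (mem_pv _ _).2 (by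
      simpa only [p_mul, g] using n.gam O o _ ((mem_pv _ _).1 hX)), fun O O' o o' s X hX => by
      simpa only [mem_pv', p_mul, p_add, p_sub, g] using n.loc O O' o o' s _ ((mem_pv _ _).1 hX)⟩,
    fun O o Y hY B B' f v z hB ad hf => ?_⟩
  · obtain ⟨Y, a, b⟩ := n.cov s L y O o _ ((mem_pv _ _).1 hX) hs hL
    obtain ⟨X, rfl⟩ := p_sur φ X
    refine ⟨φ Y, (mem_pv _ _).2 (by rwa [φ.symm_apply_apply]), fun z => ?_⟩
    obtain ⟨z, rfl⟩ := (je Q).surjective z
    rw [φ.symm_apply_apply] at b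
    exact (congrArg _ (h.ue hs hL y z).symm).trans ((je_cj _ _).trans ((congrArg _ (b z)).trans
      ((h.ue hs hL y _).trans (congrArg _ (je_cj _ _).symm))))
  · obtain ⟨Y, rfl⟩ := p_sur φ Y
    have := w O o _ ((mem_pv' _ _).1 hY) B B' f v z hB ad hf
    rw [φ.symm_apply_apply] at this
    simpa only [φ, je_cj, LinearIsometryEquiv.inner_map_map] using this

end

end Vale.Agent.N352.K
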