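import Vale.Agent.N352.K.Top
import Vale.Agent.N352.K.Cf2

/-!
# N352, block K: the charges of the extension generate the Poincare transformations
-/

set_option linter.all false

open Filter Topology
open scoped ContDiff

namespace Vale.Agent.N352.K

open P352 P352.GF P352R P352R.P P352X F
open P352.H746 (Crv vf)
open UniformSpace (Completion)
open Complex (I)

noncomputable section

universe u

variable {D : Type u} [NormedAddCommGroup D] [InnerProductSpace ℂ D] {Q : Theory D} {X : V → V}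
  {F : ℝ → Fn} {f : Fn} {B : Fld D} {T t : Ix → Ix → Fld D}

theorem cur_exp (l : ∀ m n f g (c : ℂ) v, IsTest f → IsTest g →
      t m n (fun x => f x + c * g x) v = t m n f v + c • t m n g v)
    (k : ∀ m n v, Continuous fun g => t m n (ev g) v) {c : V} {w : Ix → V}
    (e : ∀ z n, X z n = c n + 0 * z n + ∑ m, z m * w m n) {g : Fn} (hg : IsTest g) (v : D) :
    Dn.cur t X g v = ∑ n, (((eta n * c n : ℝ) : ℂ) • t o n g v +
      ∑ m, ((eta n * w m n : ℝ) : ℂ) • t o n (Dn.xg m g) v) := by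
  refine Finset.sum_congr rfl fun n _ => ?_
  choose x hx using fun m => show IsTest (Dn.xg m g) from Fss.test_xg m hg
  obtain ⟨g, rfl⟩ := hg
  have := (Grp.toC (fun f => t o n f v) (fun f g z => l o n f g z v) (k o n v)).map_add
    (((eta n * c n : ℝ) : ℂ) • g) (∑ m, ((eta n * w m n : ℝ) : ℂ) • x m)
  simp only [map_smul, map_sum] at this
  simp only [← hx]
  refine Eq.trans (congrArg (t o n · v) (funext fun z => ?_)) this
  have h := fun m => congrFun (hx m) z
  simp only [ev, Dn.xg] at h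
  simp only [ev, SchwartzMap.add_apply, SchwartzMap.smul_apply, SchwartzMap.sum_apply, h, e,
    smul_eq_mul]
  push_cast
  simp only [mul_add, add_mul, Finset.mul_sum, Finset.sum_mul, zero_mul, mul_zero, add_zero]
  congr 1
  exact Finset.sum_congr rfl fun m _ => by ring

theorem cur_same (h : Dn.IsImpr Q T t) (hT : ∀ m n, Q.fld (T m n)) (hX : Dn.IsSim 0 X)
    (hF : IsCutoff F) (hB : Q.fld B) (hf : Dn.In Set.univ f) : ∀ᶠ r in atTop, ∀ v,
      Dn.cm (Dn.cur t X) (F r) B f v = Dn.cm (Dn.cur T X) (F r) B f v := by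
  obtain ⟨c, w, hw, e⟩ := hX
  filter_upwards [h.charge F B f hF hB hf, eventually_gt_atTop 0] with r k hr v
  have g := cut_test hF hr
  have x : ∀ {s : Ix → Ix → Fld D}, (∀ v, Dn.cur s X (F r) v = ∑ n, (((eta n * c n : ℝ) : ℂ) •
      s o n (F r) v + ∑ m, ((eta n * w m n : ℝ) : ℂ) • s o n (Dn.xg m (F r)) v)) →
      Dn.cm (Dn.cur s X) (F r) B f v = ∑ n, ((eta n * c n : ℝ) : ℂ) • Dn.cm (s o n) (F r) B f v +
        ∑ n, ∑ m, ((eta n * w m n : ℝ) : ℂ) • Dn.cm (s o n) (Dn.xg m (F r)) B f v := fun a => by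
    simp only [Dn.cm, a, show ∀ u, B f u = fm hB hf.1 u from fun _ => rfl, map_sum, map_add,
      map_smul, smul_sub, Finset.sum_add_distrib, Finset.sum_sub_distrib]
    abel
  rw [x (cur_exp h.lin h.cont e g), x (cur_exp (fun m n f g z v => Q.lin _ f g z v (hT m n))
    (fun m n v => Q.cont _ v (hT m n)) e g)]
  simp only [fun n => (k o n v).1]
  congr 1
  have y : ∀ a : Ix → Ix → D, ∑ n, ∑ m, ((eta n * w m n : ℝ) : ℂ) • a m n =
      (2⁻¹ : ℂ) • ∑ n, ∑ m, ((eta n * w m n : ℝ) : ℂ) • (a m n - a n m) := fun a => by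
    have : ∑ n, ∑ m, ((eta n * w m n : ℝ) : ℂ) • a n m =
        -∑ n, ∑ m, ((eta n * w m n : ℝ) : ℂ) • a m n := by
      rw [Finset.sum_comm]
      simp only [← Finset.sum_neg_distrib, ← neg_smul]
      exact Finset.sum_congr rfl fun n _ => Finset.sum_congr rfl fun m _ => by
        rw [hw, Complex.ofReal_neg]
    simp only [smul_sub, Finset.sum_sub_distrib, this]
    module
  rw [y fun m n => Dn.cm (t o n) (Dn.xg m (F r)) B f v,
    y fun m n => Dn.cm (T o n) (Dn.xg m (F r)) B f v]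
  simp only [fun l n => (k l n v).2]

/-- the trivial spin -/
def r0 : Dn.Rp where
  n := 1
  ρ _ := 1
  S _ _ := 0
  id := rfl
  mul _ _ _ _ := .inl (one_mul _).symm
  der _ _ _ _ _ _ _ := by simpa using hasDerivAt_const _ _

theorem sim_const (hX : Dn.IsSim 0 X) (n : Ix) (x : V) (t : ℝ) :
    X (fun m => x m + bas n t m) n = X x n := by
  obtain ⟨c, w, hw, e⟩ := hX
  have h : eta n ≠ 0 := by
    unfold eta
    split_ifs <;> norm_num
  have : w n n = 0 := (mul_eq_zero.1 (by linarith [hw n n])).resolve_left h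
  simp [e, add_mul, Finset.sum_add_distrib, bas, this]

theorem cur_herm (h : ∀ m n, Dn.IsAdj (t m n) (t m n)) (hX : Dn.IsSim 0 X) (hF : IsCutoff F) :
    ∀ᶠ r in atTop, ∀ v w, inner ℂ (Dn.cur t X (F r) v) w = inner ℂ v (Dn.cur t X (F r) w) := by
  filter_upwards [eventually_gt_atTop 0] with r hr v w
  simp only [Dn.cur, sum_inner, inner_sum]
  refine Finset.sum_congr rfl fun n _ => (h o n _ v w (Fss.test_sim0 hX (cut_test hF hr) n)).trans ?_
  obtain ⟨a, c, -, -, -, -, k⟩ := hF
  congr 2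
  funext x
  simp [bar, (k r hr).2]

/-- the charges act on the scalar -/
theorem lim_sc {G : D → D} (c : Dn.Conf Q G T t) (hT : ∀ m n, Q.fld (T m n)) {L : Fld D}
    (l : Q.IsScalar L 2) (hX : Dn.IsSim 0 X) (hF : IsCutoff F) (hf : Dn.In Set.univ f) (v w : D) :
    Tendsto (fun r => inner ℂ w (Dn.cm (Dn.cur T X) (F r) L f v)) atTop
      (𝓝 (inner ℂ w (I • L (vf X f) v))) := by
  have hL := Q.bose_fld _ l.1
  have k := ((c.cfs.mp false r0 2 (fun _ => L) (fun _ => L) (fun a M f v hM hf => ?_) fun a =>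
    ⟨⟨fun s f v hs hf => ?_⟩, l.1, l.2.1⟩).1 0 X hX).act (0 : Fin 1) f w v hf F hF
  · have e1 : ∀ n, (pd n fun x => (X x n : ℂ) * f x) = fun x => (X x n : ℂ) * pd n f x :=
      fun n => funext fun x => by simp only [pd, sim_const hX, deriv_const_mul_field']
    have e2 : L (fun x => Dn.dvg (fun n x => X x n) x * f x) v = 0 := by
      simpa [Dn.dvg, pd, sim_const hX] using
        Tn.fld_sum hL (∅ : Finset Ix) (fun _ => 0) (fun _ => hf.1) v
    have e3 : L (vf X f) v = ∑ n, L (fun x => (X x n : ℂ) * pd n f x) v := by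
      unfold vf
      simpa using Tn.fld_sum hL Finset.univ (fun _ => 1) (f := fun n x => (X x n : ℂ) * pd n f x)
        (fun n => Ap.sw_congr (Ap.sw_cmul (eta n) (Fss.test_sim0 hX (Ap.test_pd n hf.1) n))
          fun x => by simp [P352W.Ft.eta_sqC, ← mul_assoc]) v
    simp only [Dn.hil, e1, e2, r0, Matrix.zero_apply, zero_smul,
      Finset.sum_const_zero, add_zero, Completion.coe_zero, smul_zero, sub_zero,
      inner_sum, Completion.inner_coe] at k
    rw [e3, inner_smul_right, inner_sum]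
    refine k.congr' ?_
    filter_upwards [cur_same c.impr hT hX hF hL hf, cur_herm c.impr.herm hX hF] with r a b
    rw [← a, Dn.cm, inner_sub_right, b, ← inner_conj_symm (L _ w), ← l.2.1 _ _ _ hf.1,
      inner_conj_symm]
  · obtain rfl : a = (0 : Fin 1) := Subsingleton.elim (α := Fin 1) _ _
    exact (l.2.2 1 M 0 f v one_pos hM hf).trans ((by simp : _ = _).trans
      (Fin.sum_univ_one fun b => (1 : Matrix (Fin 1) (Fin 1) ℂ) b 0 • _).symm)
  · rw [l.2.2 s _ 0 f v hs H496.isLor_one hf, Complex.ofReal_cpow hs.le]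
    norm_num

variable {Γ : Completion D →L[ℂ] Completion D} {N : Set V → VonNeumannAlgebra (Completion D)}
  {E : Submodule ℂ (Completion D)} {P : Theory E} {G' : E → E} {e : Fld D → Fld E}
  {A : (V → V) → D → D} {A' : (V → V) → E → E}

theorem crv_of (hX : Dn.IsSim 0 X) : ∃ L a w y, Crv (fun _ => 1) L a w 0 y ∧
    ∀ z n, X z n = y n + 0 * z n + ∑ m, z m * w m n := by
  obtain ⟨y, w, hw, e⟩ := hX
  obtain ⟨L, a, K⟩ : ∃ L a, Crv (fun _ => 1) L a w 0 y := by
    obtain ⟨L, L0, hL, dL⟩ := H746.exists_lor hw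
    exact ⟨L, fun e => e • y, rfl, L0, zero_smul _ _, fun _ => one_pos, hL, hasDerivAt_const _ _,
      dL, fun n => by simpa using hasDerivAt_mul_const (x := (0 : ℝ)) (y n)⟩
  exact ⟨L, a, w, y, K, e⟩

theorem gen_ext (x : N352.Ext Q Γ N P G' e) (a : Tn.Der Q A) (a' : Tn.Der P A')
    (hX : Dn.IsSim 0 X) {v : E} {w : D} (h : (v : Completion D) = w) :
    (A' X v : Completion D) = (A X w : D) := by
  obtain ⟨L, b, u, y, K, k⟩ := crv_of hX
  have d1 := (E.subtypeL.restrictScalars ℝ).hasFDerivAt.comp_hasDerivAt (0 : ℝ) (a'.crv K k v)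
  have d2 := ((Completion.toComplL (𝕜 := ℂ) (E := D)).restrictScalars ℝ).hasFDerivAt.comp_hasDerivAt
    (0 : ℝ) (a.crv K k w)
  have := d1.unique (d2.congr_of_eventuallyEq (Eventually.of_forall fun s =>
    (x.U _ _ _ v one_pos (K.lor s)).trans (by rw [h]; exact ue_coe one_pos (K.lor s) _ w)))
  simp only [ContinuousLinearMap.coe_restrictScalars', map_smul] at this
  exact smul_right_injective _ Complex.I_ne_zero this

/-- **the charges of the extension generate the translations and Lorentz transformations** -/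
theorem pg_ext (x : N352.Ext Q Γ N P G' e) (cy : GI.Cy Q) (a : Tn.Der Q A) (a' : Tn.Der P A')
    (hT : ∀ m n, Q.bose (T m n)) (hP : ND.PCh Q T A) {L : Fld E} (g : Gn Q P e L)
    (l : P.IsScalar L 2) {t} (c : Dn.Conf P G' (fun m n => e (T m n)) t) :
    Dn.PGen P fun m n => e (T m n) := by
  intro M b X L0 a0 hL hX d
  have k := fun v => a' (fun _ => 1) M b X v rfl L0 a0 (fun e => ⟨one_pos, hL e⟩) d
  refine gen_of k (smul_right_injective E Complex.I_ne_zero ((k _).unique ?_))
    fun F B f w hF hB hf => ?_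
  · simpa only [fun e => P.U_vac _ _ (b e) one_pos (hL e), smul_zero] using
      hasDerivAt_const (0 : ℝ) _
  have s := fun m n => Q.bose_fld _ (hT m n)
  have ag : ∀ {C g} {v : E} {w : D}, Q.fld C → IsTest g → (v : Completion D) = w →
      (e C g v : Completion D) = (C g w : D) := fun p q r =>
    x.agree _ _ _ _ p q (fun S u v => cy S u v ▸ Submodule.mem_top) r
  obtain ⟨n, C, p, q⟩ := g.2 B hB
  obtain ⟨M', b', u, y, K, e'⟩ := crv_of hX
  have h : ∀ i, Tendsto (fun r => inner ℂ w (Dn.cm (Dn.cur (fun m n => e (T m n)) X) (F r) (C i) f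
      P.vac)) atTop (𝓝 (inner ℂ w (A' X (C i f P.vac) - C i f (A' X P.vac)))) := fun i => by
    rcases p i with h | ⟨C', h1, h2⟩
    · rw [h, Tn.gen_cov K (a'.crv K e') e' (B := fun _ : Unit => L) (fun _ => P.bose_fld _ l.1)
        (P.bose_fld _ l.1) (C := fun _ _ => 1) (C' := fun _ => 0) (fun _ => hasDerivAt_const _ _)
        hf.1 _ (fun g _ => by simp) fun s => by
          simpa using l.2.2 1 _ _ f _ one_pos (K.lor s) hf.1]
      simpa using lim_sc c (fun m n => x.fld _ (s m n)) l hX hF hf P.vac w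
    obtain ⟨ρ, hρ⟩ := hf.2.1.isCompact.isBounded.subset_ball 0
    refine tendsto_const_nhds.congr' ?_
    filter_upwards [Tn.fin_ward hT hP hF hX ρ, isTest_cutoff hF] with r z hr
    have cu : ∀ {v : E} {w : D}, (v : Completion D) = w →
        ((Dn.cur (fun m n => e (T m n)) X (F r) v : E) : Completion D) =
          (ND.cur T X (F r) w : D) :=
      fun h => by
        rw [← Completion.coe_toComplL (𝕜 := ℂ), Dn.cur, ND.cur, map_sum, Submodule.coe_sum]
        exact Finset.sum_congr rfl fun n _ => ag (s o n) (Fss.test_sim0 hX hr n) h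
    refine congrArg _ (Subtype.ext ?_)
    simp only [Dn.cm, h2 _ _ hf.1, Submodule.coe_sub]
    rw [gen_ext x a a' hX (ag h1 hf.1 x.vac), ag h1 hf.1 (gen_ext x a a' hX x.vac),
      cu (ag h1 hf.1 x.vac), ag h1 hf.1 (cu x.vac), ← Completion.coe_sub, ← Completion.coe_sub,
      z C' f _ h1 ⟨hf.1, hf.2.1, hρ⟩]
  have h := tendsto_finsetSum Finset.univ fun i _ => h i
  have i : ∀ z : Fin n → E, ∑ i, inner ℂ w (z i) = inner ℂ w (∑ i, z i) := fun z =>
    (inner_sum (𝕜 := ℂ) (E := E) Finset.univ z w).symm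
  simp only [i] at h
  rw [Finset.sum_sub_distrib, ← q, show ∑ i, A' X (C i f P.vac) = A' X (B f P.vac) by
    rw [q]; exact (map_sum (Pg.lin K (a'.crv K e')) _ _).symm] at h
  refine h.congr' ((isTest_cutoff hF).mono fun r hr => ?_)
  have := ((dens_cur (fun m n => x.bos _ (hT m n)) hX).lp (G := G') hr).lin
  simp only [Dn.cm, cm, q, Finset.sum_sub_distrib]
  exact congrArg (inner ℂ w <| · - _) (map_sum (this.mk' _) _ _).symm

theorem pgen_congr {S : Ix → Ix → Fld D} (h : ∀ m n f v, IsTest f → T m n f v = S m n f v)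
    (k : Dn.PGen Q S) : Dn.PGen Q T := fun L a X p q r hX d F B f w hF hB hf =>
  have ⟨c, u, z⟩ := k L a X p q r hX d F B f w hF hB hf
  ⟨c, u.congr' ((isTest_cutoff hF).mono fun r hr => by
    simp only [Dn.cm, Dn.cur, fun n v => h o n _ v (Fss.test_sim0 hX hr n)]), z⟩

end

end Vale.Agent.N352.K
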