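import Vale.Agent.N352.K.Rw
import Vale.Agent.N352.F.Wt

/-!
# N352, block K: field reconstruction relative to the net
-/

set_option linter.all false

open Filter Topology

namespace Vale.Agent.N352.K

open Vale.Agent.P352 Vale.Agent.P352.GF Vale.Agent.P352.BW
open Vale.Agent.P352X Vale.Agent.P352X.EB E P352R P352R.Tw Rn P352W.Net F
open UniformSpace (Completion)

universe u

variable {D : Type u} [NormedAddCommGroup D] [InnerProductSpace ℂ D] {Q : Theory D} {G : D → D}
  {Γ : Completion D →L[ℂ] Completion D} {N : Set V → VonNeumannAlgebra (Completion D)}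

variable (Q N) in
/-- **field reconstruction relative to the net** -/
def RecN : Prop := ∀ l : Fn → Completion D,
  (∀ f g (c : ℂ), IsTest f → IsTest g → l (fun x => f x + c * g x) = l f + c • l g) →
  (Continuous fun g => l (ev g)) →
  (∀ (s : ℝ) L a f, 0 < s → IsLor L → IsTest f →
    l f = (s : ℂ) ^ 2 • Dn.Ue Q s L a (l fun x => f (sim s L a x))) →
  (∀ O f Z, Dn.In O f → Out N O Z →
    inner ℂ (Dn.om Q) (Z (l f)) = inner ℂ (l (bar f)) (Z (Dn.om Q))) →
  ∃ B, Q.bose B ∧ ∀ f, IsTest f → Dn.hil B f Q.vac = l f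

/-- space-like separated points lie in opposite wedges -/
theorem ex_wdg {x y : V} (h : GF.mdot (x - y) (x - y) < 0) : ∃ a b z, P.IsNull a ∧ P.IsNull b ∧
    GF.mdot a b = 1 ∧ x ∈ P.Wdg a b z ∧ y ∈ P.Wdg b a z := by
  obtain ⟨b, a, hb, ha, h1, h2, h3⟩ := Geo.ex_pair h
  have k := inv_pos.2 h1
  refine ⟨a, _, (1 / 2 : ℝ) • (x + y), ha, Geo.null_smul hb k, ?_, ?_⟩
  · rw [H755.md_smul, H755.md_comm a b, inv_mul_cancel₀ h1.ne']
  have e1 : x - (1 / 2 : ℝ) • (x + y) = (1 / 2 : ℝ) • (x - y) := by module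
  have e2 : y - (1 / 2 : ℝ) • (x + y) = (-1 / 2 : ℝ) • (x - y) := by module
  simp only [P.Wdg, Set.mem_setOf_eq, e1, e2, H755.md_smul, H755.md_smul_l]
  have := mul_pos k h2
  refine ⟨⟨?_, ?_⟩, ?_, ?_⟩ <;> linarith

variable (N) in
/-- the operators in the wedges opposite to `O` -/
def So (O : Set V) : Set (Completion D →L[ℂ] Completion D) :=
  {X | ∃ a b y O', P.IsNull a ∧ P.IsNull b ∧ GF.mdot a b = 1 ∧ O ⊆ P.Wdg a b y ∧ Dn.Reg O' ∧
    O' ⊆ P.Wdg b a y ∧ X ∈ N O'}

theorem so_star {O} : ∀ X ∈ So N O, star X ∈ So N O :=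
  fun _ ⟨a, b, y, K, h1, h2, h3, h4, h5, h6, h7⟩ => ⟨a, b, y, K, h1, h2, h3, h4, h5, h6, star_mem h7⟩

theorem so_anti {O O'} (h : O ⊆ O') : ∀ Y ∈ cmt (So N O), Y ∈ cmt (So N O') := fun _ k =>
  (mem_cmt so_star).2 fun X ⟨a, b, y, K, h1, h2, h3, h4, h5⟩ =>
    (mem_cmt so_star).1 k X ⟨a, b, y, K, h1, h2, h3, h.trans h4, h5⟩

theorem so_out {O Z} (h : Z ∈ vn (So N O)) : Out N O Z := fun Y hY =>
  mem_vn.1 h Y ((mem_cmt so_star).2 fun X ⟨a, b, y, K, h1, h2, h3, h4, h5, h6, h7⟩ =>
    VonNeumannAlgebra.mem_commutant_iff.1 (hY a b y K h1 h2 h3 h4 h5 h6) X h7)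

/-- polynomials in the fields are affiliated to the algebras of the opposite wedges -/
theorem al_so (n : Dn.Aff Q N) {K : Set V} {x : V} (hx : x ∈ K) {X X' : D → D}
    (h : P.Al Q (P.cc K) X X') : (∀ v, Dn.Cyc Q v → Dn.Cyc Q (X v)) ∧ ∃ U ∈ 𝓝 x,
      ∀ Y ∈ cmt (So N U), ∀ v w : D, Dn.Cyc Q v → Dn.Cyc Q w →
        inner ℂ (X' w : Completion D) (Y v) = inner ℂ (w : Completion D) (Y (X v : D)) := by
  induction h with
  | one => exact ⟨fun _ a => a, _, univ_mem, fun _ _ _ _ _ _ => rfl⟩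
  | add X X' Z Z' _ _ a b =>
    obtain ⟨a1, U, u, a⟩ := a
    obtain ⟨b1, U', u', b⟩ := b
    refine ⟨fun v c => (N352.cy Q).add_mem (a1 v c) (b1 v c), _, inter_mem u u',
      fun Y y v w c d => ?_⟩
    simp only [Completion.coe_add, map_add, inner_add_left, inner_add_right,
      a Y (so_anti Set.inter_subset_left Y y) v w c d, b Y (so_anti Set.inter_subset_right Y y) v w c d]
  | smul z X X' _ a =>
    obtain ⟨a1, U, u, a⟩ := a
    refine ⟨fun v c => (N352.cy Q).smul_mem z (a1 v c), U, u, fun Y y v w c d => ?_⟩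
    simp only [Completion.coe_smul, map_smul, inner_smul_left, inner_smul_right, a Y y v w c d,
      RCLike.star_def, Complex.conj_conj]
  | fld A B g X X' hA hB ad hg _ a =>
    obtain ⟨a1, U, u, a⟩ := a
    have l : ∀ {C}, Q.fld C → ∀ f f' v, GF.IsTest f → GF.IsTest f' →
        C (fun x => f x + f' x) v = C f v + C f' v := fun hC f f' v p q => by
      simpa only [one_mul, one_smul] using Q.lin _ f f' 1 v hC p q
    obtain ⟨U', u', b⟩ := Ap.in_ind (O := P.cc K) (P := fun g => ∃ U ∈ 𝓝 x, ∀ Y ∈ cmt (So N U),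
      ∀ v w : D, Dn.Cyc Q v → Dn.Cyc Q w → inner ℂ (B (bar g) w : Completion D) (Y v) =
        inner ℂ (w : Completion D) (Y (A g v : D))) ⟨_, univ_mem, fun Y _ v w _ _ => by
        rw [show (bar fun _ => 0) = fun _ => 0 from funext fun _ => star_zero _, Fss.lin0 hA,
          Fss.lin0 hB, Completion.coe_zero, map_zero, inner_zero_left, inner_zero_right]⟩
      (fun f f' p q ⟨U, u, a⟩ ⟨U', u', b⟩ => ⟨_, inter_mem u u', fun Y y v w c d => by
        rw [show (bar fun x => f x + f' x) = fun x => bar f x + bar f' x from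
          funext fun _ => star_add _ _, l hA _ _ _ p.1 q.1, l hB _ _ _ p.bar.1 q.bar.1]
        simp only [Completion.coe_add, map_add, inner_add_left, inner_add_right,
          a Y (so_anti Set.inter_subset_left Y y) v w c d,
          b Y (so_anti Set.inter_subset_right Y y) v w c d]⟩)
      (fun y hy => by
        obtain ⟨a, b, z, h1, h2, h3, h4, h5⟩ := ex_wdg (hy x hx)
        have r : Dn.Reg (P.Wdg b a z ∩ Metric.ball y 1) := ⟨(F.wdg_open _ _ _).inter
          Metric.isOpen_ball, Metric.isBounded_ball.subset Set.inter_subset_right⟩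
        exact ⟨_, r.1.mem_nhds ⟨h5, Metric.mem_ball_self one_pos⟩, fun f hf =>
          ⟨_, (F.wdg_open a b z).mem_nhds h4, fun Y y v w => n _ r Y
            (VonNeumannAlgebra.mem_commutant_iff.2 fun X m => (mem_cmt so_star).1 y X
              ⟨a, b, z, _, h1, h2, h3, subset_rfl, r, Set.inter_subset_left, m⟩) A B f v w hA ad
            ⟨hf.1, hf.2.1, hf.2.2.trans Set.inter_subset_left⟩⟩⟩) hg
    exact ⟨fun v c => Cyc.fld (a1 v c) hA hg.1, _, inter_mem u u', fun Y y v w c d =>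
      (a Y (so_anti Set.inter_subset_left Y y) v _ c (Cyc.fld d hB (t_bar hg.1))).trans
        (b Y (so_anti Set.inter_subset_right Y y) _ w (a1 v c) d)⟩

/-- locality relative to the net implies weak locality relative to the fields -/
theorem wl_of (n : Dn.Aff Q N) {l : Fn → Completion D}
    (h1 : ∀ f g (c : ℂ), IsTest f → IsTest g → l (fun x => f x + c * g x) = l f + c • l g)
    (h2 : ∀ O f Z, Dn.In O f → Out N O Z →
      inner ℂ (Dn.om Q) (Z (l f)) = inner ℂ (l (bar f)) (Z (Dn.om Q))) : P.WeakLoc Q l :=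
  fun f X X' hf hX => by
  have ad : ∀ f g, IsTest f → IsTest g → l (fun x => f x + g x) = l f + l g := fun f g a b => by
    simpa only [one_mul, one_smul] using h1 f g 1 a b
  refine Ap.in_ind (O := tsupport f) (P := fun f => inner ℂ ((X' Q.vac : D) : Completion D) (l f) =
    inner ℂ (l (bar f)) ((X Q.vac : D) : Completion D)) ?_ (fun f g a b p q => ?_)
    (fun x hx => ?_) ⟨hf.1, hf.2.1, subset_rfl⟩
  · have := h1 f f (-1) hf.1 hf.1
    simp only [neg_one_mul, add_neg_cancel, neg_one_smul] at this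
    rw [show (bar fun _ => 0) = fun _ => 0 from funext fun _ => star_zero _, this, inner_zero_left,
      inner_zero_right]
  · rw [show (bar fun x => f x + g x) = fun x => bar f x + bar g x from
      funext fun _ => star_add _ _, ad _ _ a.1 b.1, ad _ _ a.bar.1 b.bar.1, inner_add_left,
      inner_add_right, p, q]
  obtain ⟨-, U, u, k⟩ := al_so n hx hX
  obtain ⟨Z, z1, z2, z3, -⟩ := TR.trunc (vn (So N U)) (fun v : N352.cy Q => ((v : D) : Completion D))
    (fun v => (X v : D)) (fun v => (X' v : D)) (N352.G.X.cs_dense Q)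
    fun Y y v w => k Y (by rwa [vn_comm] at y) v w v.2 w.2
  refine ⟨U, u, fun g hg => tendsto_nhds_unique ((z3 ⟨_, cyc_vac⟩).inner tendsto_const_nhds)
    ((tendsto_const_nhds.inner (z2 ⟨_, cyc_vac⟩)).congr fun n => ?_)⟩
  rw [ContinuousLinearMap.star_eq_adjoint, ContinuousLinearMap.adjoint_inner_left]
  exact (h2 U g _ ⟨hg.1, hg.2.1, hg.2.2.trans Set.inter_subset_left⟩ (so_out (z1 n))).symm

/-- **reconstruction relative to the fields implies reconstruction relative to the net** -/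
theorem recN_of (h : P.Rec Q) (n : Dn.Aff Q N) : RecN Q N := fun l h1 h2 h3 h4 => by
  obtain ⟨Φ, hΦ⟩ := h 0 2 (fun _ => l) ⟨fun _ => h1, fun _ => h2, fun μ s M a f hs hM b => by
    rw [Fintype.sum_unique, h3 s M a f hs hM b]
    norm_num
    rfl⟩ fun _ => wl_of n h1 h4
  exact ⟨_, hΦ default⟩

/-- **the scalars of extensions that are affiliated to the dual net are reconstructed** -/
theorem rec_ext (g : Dn.Gr Q G) (v : G Q.vac = Q.vac) (x : ∀ v : D, Γ v = (G v : D))
    (r : RecN Q N) {E : Type*} [NormedAddCommGroup E] [InnerProductSpace ℂ E] {R : Theory E}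
    {k : E →ₗᵢ[ℂ] Completion D} {G' e L} (h : Dn.Ext Q Γ R k G' e)
    (w : ∀ O Z, Out N O Z → Wq R k O (Z + Γ * Z * Γ)) (hL : R.IsScalar L 2) :
    ∃ B, Q.bose B ∧ ∀ f, IsTest f → Dn.hil B f Q.vac =
      Completion.map (LinearIsometry.id : D →ₗᵢ[ℂ] D) (k (L f R.vac)) := by
  have hf := R.bose_fld _ hL.1
  have s : ∀ a b, inner ℂ (Γ a) b = inner ℂ a (Γ b) := fun a b =>
    Completion.induction_on₂ a b (isClosed_eq (by fun_prop) (by fun_prop)) fun a b => by
      rw [x, x, Completion.inner_coe, Completion.inner_coe, g.herm]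
  have o : Γ (Dn.om Q) = Dn.om Q := (x _).trans (congrArg _ v)
  have ev : ∀ f, IsTest f → Γ (k (L f R.vac)) = k (L f R.vac) := fun f a => by
    rw [← h.G, ← h.bose L f _ hL.1 a, k.injective ((h.G _).trans (h.vac ▸ o))]
  obtain ⟨B, b1, b2⟩ := r (fun f => k (L f R.vac))
    (fun f g c a b => by rw [R.lin L f g c _ hf a b, map_add, map_smul])
    (k.continuous.comp (R.cont L _ hf)) (fun s M a f hs hM b => by
      have := hL.2.2 s M a f R.vac hs hM b
      rw [R.U_vac _ _ _ hs hM] at this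
      rw [this, map_smul, h.U _ _ _ _ hs hM]
      norm_num) fun O f Z a z => by
    have := w O Z z L L f R.vac R.vac hf hL.2.1 a
    simp only [h.vac, ContinuousLinearMap.add_apply, ContinuousLinearMap.mul_apply,
      inner_add_right, ← s, o, ev f a.1, ev _ (t_bar a.1), ← two_mul] at this
    exact (mul_left_cancel₀ two_ne_zero this).symm
  exact ⟨B, b1, fun f a => (b2 f a).trans (congrFun (Completion.map_id (α := D)) _).symm⟩

end Vale.Agent.N352.K
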