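import Vale.Agent.N352.K.Cf
import Vale.Agent.N352.G.Rw

/-!
# N352, block K: local extensions are affiliated to the dual net
-/

set_option linter.all false

open Filter Topology
open Bornology (IsBounded)

namespace Vale.Agent.N352.K

open Vale.Agent.P352 Vale.Agent.P352.GF Vale.Agent.P352.BW
open Vale.Agent.P352X Vale.Agent.P352X.EB E P352R P352R.Tw Rn P352W.Net F
open UniformSpace (Completion)

universe u

section hilbert

variable {H : Type*} [NormedAddCommGroup H] [InnerProductSpace ℂ H] [CompleteSpace H]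

/-- `Z` is in the von Neumann algebra generated by the algebras of the regions in the wedges
opposite to `O` -/
def Out (N : Set V → VonNeumannAlgebra H) (O : Set V) (Z : H →L[ℂ] H) : Prop :=
  ∀ Y, (∀ a b y O', P.IsNull a → P.IsNull b → GF.mdot a b = 1 → O ⊆ P.Wdg a b y → Dn.Reg O' →
    O' ⊆ P.Wdg b a y → Y ∈ (N O').commutant) → Y * Z = Z * Y

/-- inclusion of nets -/
def Le (N N' : Set V → VonNeumannAlgebra H) : Prop := ∀ O, Dn.Reg O → ∀ X ∈ N O, X ∈ N' O

theorem out_mem {N : Set V → VonNeumannAlgebra H} {O Z} (z : Out N O Z) {M : VonNeumannAlgebra H}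
    (h : ∀ a b y O', P.IsNull a → P.IsNull b → GF.mdot a b = 1 → O ⊆ P.Wdg a b y → Dn.Reg O' →
      O' ⊆ P.Wdg b a y → ∀ X ∈ N O', X ∈ M) : Z ∈ M := by
  rw [← M.commutant_commutant, VonNeumannAlgebra.mem_commutant_iff]
  exact fun Y hY => z Y fun a b y O' p q r s o t => VonNeumannAlgebra.mem_commutant_iff.2
    fun X hX => VonNeumannAlgebra.mem_commutant_iff.1 hY X (h a b y O' p q r s o t X hX)

end hilbert

variable {D : Type u} [NormedAddCommGroup D] [InnerProductSpace ℂ D] {Q : Theory D} {G : D → D}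
  {A : (V → V) → D → D} {Γ : Completion D →L[ℂ] Completion D}
  {N : Set V → VonNeumannAlgebra (Completion D)}

/-- **relatively local nets give local nets**, which contain the given net -/
theorem net_of2 (g : GI.Ge Q G A) (m : P.MfA Q) (y : GI.Cy Q) (h : Dn.Net Q G Γ N)
    (r : Dn.Rel Q Γ N) : ∃ N', P352R.G.LNg Q G A Γ N' ∧ Le N N' := by
  refine ⟨_, Br.lng.2 (lng (rn g y h r) (Br.mfa.1 m)), fun O o X hX => (mem_cmt Sx.st).2 ?_⟩
  rintro _ ⟨O', o', s, X', hX', rfl⟩
  have k := kz_conj (SGx.g2 (cr g h)) (e := -1) (by norm_num) X'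
  rw [neg_neg, ← kz_star' (SGx.gs _)] at k
  have l := h.loc O' O o' o (fun x p y q => by
    have := s (subset_closure p) y q
    simp only [GF.mdot, Pi.sub_apply] at this ⊢
    exact (Finset.sum_congr rfl fun m _ => by ring).trans_lt this) X' hX'
  refine (VonNeumannAlgebra.mem_commutant_iff.1 (?_ : _ ∈ (N O).commutant) X hX).symm
  rw [k]
  exact add_mem ((N O).commutant.toStarSubalgebra.smul_mem l.1 _)
    ((N O).commutant.toStarSubalgebra.smul_mem l.2 _)

theorem out_pb {O Z} (z : Out N O ((je Q).conjStarAlgEquiv Z)) : Out (pb Q N) O Z :=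
  fun Y hY => (je Q).conjStarAlgEquiv.injective ((p_mul _ _ _).trans ((z _
    fun a b y O' p q r s o t => (mem_pv' _ _).1 (hY a b y O' p q r s o t)).trans (p_mul _ _ _).symm))

/-- the twisted parts of the operators in the opposite wedges -/
theorem out_st {N0 : Set V → VonNeumannAlgebra (Completion D)} (g2 : Γ * Γ = 1) (gs : star Γ = Γ)
    (n : ∀ O, ∀ X ∈ N0 O, Γ * X * Γ ∈ N0 O) (d : Le N N0) {O Z} (z : Out N O Z) :
    Z + Γ * Z * Γ ∈ vn (St N0 O IsBounded Γ) ∧ (Z - Γ * Z * Γ) * Γ ∈ vn (St N0 O IsBounded Γ) :=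
  (kl_iff g2 gs (Cv.vn_gam g2 st_star fun _ ⟨a, b, y, K, h1, h2, h3, h4, h5⟩ =>
    ⟨a, b, y, K, h1, h2, h3, h4, kl_gam g2 gs (n K) h5⟩)).1 (out_mem z
      fun a b y O' p q r s o t X hX => kl_mono g2 gs
        (fun Y m => Cv.vn_sub st_star Y ⟨a, b, y, O', ⟨p, q, r⟩, s, t, o.2, m⟩)
        ((klkl g2 gs).2 (n O' X (d O' o X hX))))

/-- **transport**: a local extension of the restricted theory that is affiliated to the dual net of
a net that contains the pulled back net is affiliated to the dual net of the given net -/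
theorem rw_of {N0} (d : Le (pb Q N) N0) (g2 : pg Q Γ * pg Q Γ = 1) (gs : star (pg Q Γ) = pg Q Γ)
    (n : ∀ O, ∀ X ∈ N0 O, pg Q Γ * X * pg Q Γ ∈ N0 O)
    {E : Submodule ℂ (Completion (N352.cy Q))} {R : Theory E} (k : Afd IsBounded (pg Q Γ) N0 R)
    (O Z) (z : Out N O Z) :
    Wq R ((je Q).toLinearIsometry.comp E.subtypeₗᵢ) O (Z + Γ * Z * Γ) ∧
      Wq R ((je Q).toLinearIsometry.comp E.subtypeₗᵢ) O ((Z - Γ * Z * Γ) * Γ) := by
  obtain ⟨Z, rfl⟩ := p_sur (je Q).conjStarAlgEquiv Z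
  have l := out_st g2 gs n d (out_pb z)
  have w : ∀ Y ∈ vn (St N0 O IsBounded (pg Q Γ)), Wq R
      ((je Q).toLinearIsometry.comp E.subtypeₗᵢ) O ((je Q).conjStarAlgEquiv Y) :=
    fun Y hY B B' f v w hB ad hf => by
    have := k O B B' f hB ad hf Y hY v w
    show inner ℂ (je Q _) ((je Q).conjStarAlgEquiv Y (je Q _)) =
      inner ℂ (je Q _) ((je Q).conjStarAlgEquiv Y (je Q _))
    rw [je_cj, je_cj, LinearIsometryEquiv.inner_map_map, LinearIsometryEquiv.inner_map_map]
    exact this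
  exact ⟨by simpa only [p_mul, p_add, cj_pg] using w _ l.1,
    by simpa only [p_mul, p_sub, cj_pg] using w _ l.2⟩

end Vale.Agent.N352.K
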