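import Vale.Agent.N352.T.Fin
import Vale.Agent.N352.K.Key
import Vale.Agent.N352.K.Rc
import Vale.Agent.N352.DefK

/-!
# N352, block K: the theorem
-/

set_option linter.all false

open Filter Topology
open Bornology (IsBounded)

namespace Vale.Agent.N352.K

open P352.GF P352R P352R.P F
open T (Cm)
open UniformSpace (Completion)

noncomputable section

universe u v

variable {D : Type u} {D' : Type v} [NormedAddCommGroup D] [InnerProductSpace ℂ D]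
  [NormedAddCommGroup D'] [InnerProductSpace ℂ D'] {Q : Theory D} {G : D → D}
  {T : Ix → Ix → Fld D} {Γ : Completion D →L[ℂ] Completion D}
  {N : Set V → VonNeumannAlgebra (Completion D)}

theorem cnf (g : P.Gr Q G) {t} (k : Cm Q G T t) : Dk.Cnf Q G T t :=
  have k := N352.T.cnf N352.T.dta_all g k
  ⟨k.1, k.2⟩

theorem hz (h : Dn.Hy Q G T Γ N) : Dn.Hz Q G T Γ N :=
  ⟨h.1, h.2, h.net.ext, h.3, h.4, h.5, h.6, .net ⟨h.7, h.8⟩⟩

open Gz (prep tf st pc iv self ext_congr conf_congr)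

/-- the analytic results, transported from the generated domain -/
theorem use (H : Dn.Hy Q G T Γ N) {R : Theory D'} {i G' T'} (o : Dn.Over Q T R i G' T') :
    ∃ (h : Ok Q) (S S' : _), (rs Q h).IsStress S ∧ R.IsStress S' ∧ Dn.Same R T' S' ∧
    (∀ m n, Xt (i.comp (io Q)) (S m n) (S' m n)) ∧
    (∃ (M : _) (E : Submodule ℂ (Completion (N352.cy Q))) (P : Theory E) (G1 : E → E)
      (e : _ → Fld E) (t : Ix → Ix → Fld E), Ext (rs Q h) (pg Q Γ) M P G1 e ∧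
      Dk.Exk Q Γ N P ((je Q).toLinearIsometry.comp E.subtypeₗᵢ) G1 (fun B => e (rf Q B)) ∧
      Desc P G1 t ∧ ∀ R, IsEnl P R → Gr R G1 → Cm R G1 (fun m n => e (S m n)) t) ∧
    (Dk.Mak Q Γ N R i → ∃ t, Cm R G' T' t) := by
  have g := gr.1 H.grading
  have Z := hz H
  obtain ⟨h, A, m, l, a⟩ := prep Z
  obtain ⟨M, n, d⟩ := net_of2 a (rs_mfa (h := h) m) rs_cy ((rs_rst (h := h)).net
    (rg_coe g H.even) H.net) ((rs_rst (h := h)).rel (H.strong.elim (rel_of_aff g H.net) id))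
  let x : P352X.EG.Cg _ := ⟨rs Q h, _, A, _, M, Br.lng.1 n⟩
  have w : ∀ {E : Submodule ℂ (Completion (N352.cy Q))} {P : Theory E} {G1 e},
      Ext (rs Q h) (pg Q Γ) M P G1 e → Afd IsBounded (pg Q Γ) M P → Dk.Exk Q Γ N P
        ((je Q).toLinearIsometry.comp E.subtypeₗᵢ) G1 fun B => e (rf Q B) := fun y z =>
    ⟨(rs_rst (h := h)).ext (fun _ => rf_xt) y, fun O Y k => (rw_of d (P352X.EG.SGx.g2 x)
      (P352X.EG.SGx.gs x) n.gam z O Y k).imp (⟨·⟩) (⟨·⟩)⟩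
  have m' := Br.mfa.1 (rs_mfa (h := h) m)
  have l' := rs_fsl (h := h) l
  have k := iv Z m l a
  have s := Br.stress0.1 (st (h := h) Z)
  have p := pc Z m a
  have b := rs_sect (h := h) (sect.1 o.sect)
  have c := st0_of (gr.1 o.grading) o.stress o.poincare
  have e : ∀ m n, Xt (i.comp (io Q)) (rf Q (T m n)) (T' m n) := fun m n f v hf =>
    (congrArg i (rf_xt (tf Z m n) f v hf)).trans (o.ext m n f _ hf)
  obtain ⟨S, S', h1, h2, h3, -, h4, h5⟩ :=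
    four (U.rows _) x m' l' k s p b (gr.1 o.grading) c o.poincare e
  obtain ⟨E, P, G1, e1, t, ⟨a1, a2⟩, a3⟩ := exten x m' l' k h1 h2
  refine ⟨h, S, S', h1, h3, h4, h5, ⟨M, E, P, G1, e1, t, a1, w a1 a2, a3⟩, fun y =>
    key x m' l' k s p b (gr.1 o.grading) c o.poincare e fun E S G' e L u v l => ?_⟩
  obtain ⟨B, a, b⟩ := y.max E S _ G' _ L (w u v) l
  exact ⟨B, a, fun f hf => (b f hf).trans (jc_je _)⟩

theorem sup (H : Dn.Hy Q G T Γ N) {R : Theory D'} {i G' T'} (o : Dn.Over Q T R i G' T')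
    (x : Dk.Mak Q Γ N R i) : ∃ t, Dk.Cnf R G' T' t := by
  obtain ⟨-, -, -, -, -, -, -, -, k⟩ := use H o
  exact (k x).imp fun _ => cnf (gr.1 o.grading)

theorem cf (H : Dn.Hy Q G T Γ N) (x : Dk.Mak Q Γ N Q .id) :
    ∃ t, Dk.Cnf Q G T t ∧ Dn.Desc Q G t := by
  obtain ⟨-, -, m, l, -⟩ := prep (hz H)
  exact (sup H (self (hz H) m l) x).imp fun t k => ⟨k, k.desc (mfa.2 m) (fsl.2 l)⟩

theorem mak (H : Dn.Hy Q G T Γ N) (r : Dk.RecN Q N) : Dk.Mak Q Γ N Q .id :=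
  ⟨fun _ _ _ _ _ _ _ _ x => rec_ext H.grading H.even H.net.ext r.fld x.toExt
    fun O Z z => (x.rel O Z z).1.wk⟩

variable (D D') in
/-- **the theorem** -/
theorem thm : Dk.Thk D D' where
  net Q G T Γ N H r := cf H (mak H r)
  conf Q G T Γ N H x := cf H x
  sup Q G T Γ N R i G' T' H o x := sup H o x
  ext Q G T Γ N H := by
    obtain ⟨-, -, m, l, -⟩ := prep (hz H)
    obtain ⟨h, S, S', a, b, c, d, ⟨M, E, P, G1, e, t, y, z, q, r⟩, -⟩ := use H (self (hz H) m l)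
    have s := fun m n => Q.bose_fld _ (b.bose m n)
    exact ⟨S', b, c, E, _, _, P, _, G1, _, t, z, desc q, fun R u w =>
      have r := r R (enl.1 u) (gr.1 w)
      cnf (gr.1 w) ⟨conf_congr (fun m n f v hf => ext_congr y (rs_fld (s m n))
        ((rs Q h).bose_fld _ (a.bose m n)) (fun f v hf => (io Q).injective
          ((rf_xt (s m n) f v hf).trans (d m n f v hf).symm)) hf v) r.1, r.2⟩⟩
  uni _ := Bg.ivac_of

open P352 P352R.G P352R.Le P352R.L22 P352L.StA in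
/-- **the witness with a unique vacuum** -/
theorem wik : ∃ (E : Type) (_ : NormedAddCommGroup E) (_ : InnerProductSpace ℂ E), Dk.Wik E := by
  obtain ⟨A, N, ⟨a, b, -, f, n, u, x⟩, -, y, ⟨-, g, d⟩, ⟨B, l, m⟩, k⟩ := fr.topQ rec_fr
  obtain ⟨J, hJ⟩ := vir_fr
  obtain ⟨N', n1, n2, n3⟩ := net_all (lng_of n g)
  have c : Dn.CntF fr.tq := ⟨cntF_tq.1, cntF_tq.2, cntF_tq.3, cts_of d⟩
  have H : Dn.Hy fr.tq id _ 1 N' :=
    ⟨gr.2 g, rfl, stress a, pgen' d b, .inl ⟨J, hJ⟩, .inl c, n1, .inl n2⟩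
  have r : Dk.RecN fr.tq N' := ⟨recN_of x n2⟩
  exact ⟨_, _, _, fr.tq, _, N', J, B, H, r, mak H r, u, hJ, c, ⟨mfa.2 y, fsl.2 f⟩, n2, n3, l, m, k⟩

open P352R.G U.Sm in
/-- **the witness with a degenerate vacuum** -/
theorem wikD : ∃ (E : Type) (_ : NormedAddCommGroup E) (_ : InnerProductSpace ℂ E), Dk.WikD E := by
  obtain ⟨A, N, ⟨a, b, -, f, n, u, x⟩, -, m, ⟨-, g, -⟩, -, -, k, p, q⟩ := fr.topQ rec_fr
  let c : P352X.EG.Cg _ := ⟨fr.tq, id, A, 1, N, Br.lng.1 (lng_of n g)⟩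
  have h : U.Sm.Ok (Tn.bg c).Q := ⟨(Tn.bg_big c).one, zero_mem _⟩
  have a' := Br.stress0.2 (Tn.bg_st0 (c := c) (Br.stress0.1 a))
  have l := lnm_of (Br.lng.2 (Tn.bg c).hN)
  have n' := lng_of (lnm (h := h) l) (U.Sm.gr (Br.lng.2 (Tn.bg c).hN).toGr l.toRep)
  obtain ⟨N', n1, n2⟩ := net_aff n'
  exact ⟨_, _, _, sm h, _, N', ⟨F.gr.2 n'.toGr, rfl, stress (st0 a'),
    pgen' n'.der (pch (Tn.bg_pch (c := c) (fun m n => fr.tq.bose_fld _ (a.bose m n)) b)),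
    .inr (ivac u), .inr ⟨F.mfa.2 (U.Sm.mfa (Br.mfa.2 (Tn.bg_mfa (c := c) (Br.mfa.1 m)))),
      F.fsl.2 (U.Sm.fsl (Tn.bg_fsl (c := c) f))⟩, n1, .inl n2⟩,
    ⟨recN_of (recon (h := h) fun k d φ p q => (x k d φ ⟨p.lin, p.cont, p.cov⟩ fun μ f X X' s t =>
      q μ f X X' s (Bg.al_enl (fun _ => Tn.bg_fld (c := c)) t)).imp fun _ r μ =>
        ⟨Tn.bg_bose (c := c) (r μ).1, (r μ).2⟩) n2⟩, not_uvac, k, p, trace a' p q⟩

end

end Vale.Agent.N352.K
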