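import Vale.Agent.N352.Z.Ex
import Vale.Agent.N352.K.Pg

/-!
# N352, block K: the extension, with its net, multiplets, scaling laws and charges
-/

set_option linter.all false

open Filter Topology
open Bornology (IsBounded)

namespace Vale.Agent.N352.K

open P352.GF P352R P352R.P F
open T (Cm)
open UniformSpace (Completion)

noncomputable section

universe u

variable {D : Type u} [NormedAddCommGroup D] [InnerProductSpace ℂ D] {Q : Theory D} {G : D → D}
  {T : Ix → Ix → Fld D} {Γ : Completion D →L[ℂ] Completion D}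
  {N : Set V → VonNeumannAlgebra (Completion D)}

open Gz (prep tf st pc iv self ext_congr conf_congr)

/-- **the local extension, with its net** -/
theorem ext3 (H : Dn.Hy Q G T Γ N) : ∃ S, Q.IsStress S ∧ Dn.Same Q T S ∧
    ∃ (E : Type u) (_ : NormedAddCommGroup E) (_ : InnerProductSpace ℂ E) (P : Theory E)
      (k : E →ₗᵢ[ℂ] Completion D) (G' : E → E) (e : Fld D → Fld E) (t : Ix → Ix → Fld E), ∃ Γ' N',
      Dk.Exk Q Γ N P k G' e ∧ Dn.Stress P (fun m n => e (S m n)) ∧ Dn.MfA P ∧ Dn.FSL P ∧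
        Dn.PGen P (fun m n => e (S m n)) ∧ Dn.Net P G' Γ' N' ∧ Dn.Aff P N' ∧ Dn.Desc P G' t ∧
        ∀ R, Dn.IsEnl P R → Dn.Gr R G' → Dk.Cnf R G' (fun m n => e (S m n)) t := by
  have g := gr.1 H.grading
  have Z := hz H
  obtain ⟨h, A, m, l, a⟩ := prep Z
  have o := self Z m l
  obtain ⟨M, n, d, d'⟩ := net_of3 a (rs_mfa (h := h) m) rs_cy ((rs_rst (h := h)).net
    (rg_coe g H.even) H.net) ((rs_rst (h := h)).rel (H.strong.elim (rel_of_aff g H.net) id))
  let x : P352X.EG.Cg _ := ⟨rs Q h, _, A, _, M, Br.lng.1 n⟩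
  have m' := Br.mfa.1 (rs_mfa (h := h) m)
  have l' := rs_fsl (h := h) l
  have k := iv Z m l a
  obtain ⟨S, S', h1, h2, b, -, c, h5⟩ := four (U.rows _) x m' l' k (Br.stress0.1 (st (h := h) Z))
    (pc Z m a) (rs_sect (h := h) (sect.1 o.sect)) g (st0_of g o.stress o.poincare) o.poincare
    fun m n => rf_xt (tf Z m n)
  obtain ⟨E, P, G1, e, L, ⟨y, z⟩, ⟨gn, q, q'⟩, s', sc, ds, r⟩ := exten2 x m' l' k h1 h2
  have s := fun m n => Q.bose_fld _ (b.bose m n)
  have u := (rs_rst (h := h)).ext (Γ := Γ) (fun _ => rf_xt) y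
  obtain ⟨N0, n0, w0⟩ := net_dia x d' z
  obtain ⟨N', n', w'⟩ := push (rs_rst (h := h)) n0 H.net.ext w0
  obtain ⟨Γ', N'', p, p'⟩ := pull _ ((N352.G.X.cs_dense Q).mono (by
    rintro _ ⟨w, rfl⟩
    exact ext_mem u w.2)) u.G u.U n' w'
  have cg := fun m n f v (hf : IsTest f) => ext_congr y (rs_fld (h := h) (s m n))
    ((rs Q h).bose_fld _ (h1.bose m n)) (fun f v hf => (io Q).injective
      ((rf_xt (s m n) f v hf).trans (h5 m n f v hf).symm)) hf v
  obtain ⟨A', a'⟩ := (GI.thm _).gen P G1 y.toGr (Subtype.ext ((y.G _).trans (by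
    rw [y.vac]
    exact (n.ext _).trans (congrArg _ n.vac)))) (F.cy.1 gn.1) (Br.mfa.2 q) q'
  have pg := pg_ext y (rs_cy (h := h)) a.der a'.der h1.bose h2 gn sc
    (cnf y.toGr (r P ⟨rfl, rfl, fun _ h => h, fun _ h => h⟩ y.toGr)).toConf
  exact ⟨S', b, c, E, _, _, P, _, G1, _, _, Γ', N'', ⟨u, fun O Y k => (rw_of d (P352X.EG.SGx.g2 x)
      (P352X.EG.SGx.gs x) n.gam z O Y k).imp (⟨·⟩) (⟨·⟩)⟩,
    stress_congr s' (fun m n => u.bos _ (b.bose m n)) cg, mfa.2 (Br.mfa.2 q), fsl.2 q',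
    pgen_congr cg pg, p, p',
    desc ds, fun R u w => have r := r R (enl.1 u) (gr.1 w)
      cnf (gr.1 w) ⟨conf_congr cg r.1, r.2⟩⟩

end

end Vale.Agent.N352.K
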